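import Mathlib

/-! A Hölder-type inequality for even weighted cycles, by folding. -/

namespace Vale.Agent.P050

open Finset Matrix
open scoped Classical

set_option linter.unusedSectionVars false

noncomputable section

variable {α : Type*} [Fintype α]

def word (ν : α → ℝ) (M : Matrix α α ℝ) (l : List (α → ℝ)) : Matrix α α ℝ :=
  (l.map (fun D => diagonal (fun s => ν s * D s) * M)).prod

def one' : α → ℝ := fun _ => 1

variable {ν : α → ℝ} {M : Matrix α α ℝ}

theorem word_append (l₁ l₂ : List (α → ℝ)) :
    word ν M (l₁ ++ l₂) = word ν M l₁ * word ν M l₂ := by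
  simp [word]

theorem trace_word_comm (l₁ l₂ : List (α → ℝ)) :
    trace (word ν M (l₁ ++ l₂)) = trace (word ν M (l₂ ++ l₁)) := by
  rw [word_append, word_append, trace_mul_comm]

theorem mid_transpose (hM : Mᵀ = M) (L : List (α → ℝ)) :
    (M * word ν M L)ᵀ = M * word ν M L.reverse := by
  induction L with
  | nil => simp [word, hM]
  | cons D L ih =>
    have e : word ν M (D :: L) = diagonal (fun s => ν s * D s) * (M * word ν M L) := by
      simp [word, mul_assoc]
    rw [e, transpose_mul, transpose_mul, ih, diagonal_transpose, hM, List.reverse_cons,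
      word_append]
    simp [word, mul_assoc]

theorem word_split (a b : α → ℝ) (L₁ L₂ : List (α → ℝ)) :
    word ν M (a :: (L₁ ++ b :: L₂)) =
      diagonal (fun s => ν s * a s) * (M * word ν M L₁) *
        (diagonal (fun s => ν s * b s) * (M * word ν M L₂)) := by
  simp [word, mul_assoc]

theorem trace_split (a b : α → ℝ) (L₁ L₂ : List (α → ℝ)) :
    trace (word ν M (a :: (L₁ ++ b :: L₂))) =
      ∑ p : α × α, ν p.1 * ν p.2 * (a p.1 * b p.2 *
        ((M * word ν M L₁) p.1 p.2 * (M * word ν M L₂) p.2 p.1)) := by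
  rw [word_split, Fintype.sum_prod_type]
  simp only [trace, diag_apply]
  refine sum_congr rfl (fun s _ => ?_)
  rw [mul_apply]
  refine sum_congr rfl (fun t _ => ?_)
  rw [diagonal_mul, diagonal_mul]
  ring

theorem trace_fold (hM : Mᵀ = M) (L : List (α → ℝ)) :
    trace (word ν M (one' :: (L ++ one' :: L.reverse))) =
      ∑ p : α × α, ν p.1 * ν p.2 * ((M * word ν M L) p.1 p.2) ^ 2 := by
  rw [trace_split]
  refine sum_congr rfl (fun p _ => ?_)
  rw [← mid_transpose hM L, transpose_apply]
  simp only [one']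
  ring

theorem trace_fold_nonneg (hν : ∀ s, 0 ≤ ν s) (hM : Mᵀ = M) (L : List (α → ℝ)) :
    0 ≤ trace (word ν M (one' :: (L ++ one' :: L.reverse))) := by
  rw [trace_fold hM]
  exact sum_nonneg (fun p _ => mul_nonneg (mul_nonneg (hν _) (hν _)) (sq_nonneg _))

theorem trace_sq_le (hν : ∀ s, 0 ≤ ν s) (hM : Mᵀ = M) (a b : α → ℝ)
    (ha : ∀ s, |a s| ≤ 1) (hb : ∀ s, |b s| ≤ 1) (L₁ L₂ : List (α → ℝ)) :
    trace (word ν M (a :: (L₁ ++ b :: L₂))) ^ 2 ≤
      trace (word ν M (one' :: (L₁ ++ one' :: L₁.reverse))) *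
      trace (word ν M (one' :: (L₂.reverse ++ one' :: L₂))) := by
  have h2 : trace (word ν M (one' :: (L₂.reverse ++ one' :: L₂))) =
      ∑ p : α × α, ν p.1 * ν p.2 * ((M * word ν M L₂) p.2 p.1) ^ 2 := by
    have h := trace_fold (ν := ν) hM L₂.reverse
    rw [List.reverse_reverse] at h
    rw [h]
    refine sum_congr rfl (fun p _ => ?_)
    rw [← mid_transpose hM L₂, transpose_apply]
  rw [trace_split, trace_fold hM, h2]
  set A := fun p : α × α => (M * word ν M L₁) p.1 p.2
  set B := fun p : α × α => (M * word ν M L₂) p.2 p.1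
  refine (sq_le_sq' ?_ ?_).trans
    (sum_sq_le_sum_mul_sum_of_sq_le_mul (r := fun p => ν p.1 * ν p.2 * |A p * B p|) univ ?_ ?_ ?_)
  · refine neg_le.1 ?_
    rw [← sum_neg_distrib]
    refine sum_le_sum (fun p _ => ?_)
    rw [← mul_neg]
    refine mul_le_mul_of_nonneg_left ((neg_le_abs _).trans ?_) (mul_nonneg (hν _) (hν _))
    rw [abs_mul, abs_mul]
    exact mul_le_of_le_one_left (abs_nonneg _) (mul_le_one₀ (ha _) (abs_nonneg _) (hb _))
  · refine sum_le_sum (fun p _ => ?_)
    refine mul_le_mul_of_nonneg_left ((le_abs_self _).trans ?_) (mul_nonneg (hν _) (hν _))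
    rw [abs_mul, abs_mul]
    exact mul_le_of_le_one_left (abs_nonneg _) (mul_le_one₀ (ha _) (abs_nonneg _) (hb _))
  · exact fun p _ => mul_nonneg (mul_nonneg (hν _) (hν _)) (sq_nonneg _)
  · exact fun p _ => mul_nonneg (mul_nonneg (hν _) (hν _)) (sq_nonneg _)
  · intro p _
    simp only [A, B]
    refine le_of_eq ?_
    rw [mul_pow, sq_abs]
    ring

/-- An even weighted cycle with weights bounded by one is dominated by the plain one. -/
theorem abs_trace_le (hν : ∀ s, 0 ≤ ν s) (hM : Mᵀ = M) {j : ℕ} (hj : 1 ≤ j)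
    (l : List (α → ℝ)) (hl : l.length = 2 * j) (hb : ∀ D ∈ l, ∀ s, |D s| ≤ 1) :
    |trace (word ν M l)| ≤ trace (word ν M (List.replicate (2 * j) one')) := by
  set ents : Finset (α → ℝ) := insert one' l.toFinset with hents
  have hentsb : ∀ D ∈ ents, ∀ s, |D s| ≤ 1 := by
    intro D hD s
    rcases mem_insert.1 hD with rfl | hD
    · simp [one']
    · exact hb D (List.mem_toFinset.1 hD) s
  set S := (Fintype.piFinset (fun _ : Fin (2 * j) => ents)).image List.ofFn
  have memS : ∀ l' : List (α → ℝ), l'.length = 2 * j → (∀ D ∈ l', D ∈ ents) → l' ∈ S := by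
    intro l' h1 h2
    refine mem_image.2 ⟨fun i => l'[i.val]'(by omega), ?_, ?_⟩
    · exact Fintype.mem_piFinset.2 (fun i => h2 _ (List.getElem_mem _))
    · apply List.ext_getElem <;> simp [h1]
  have Sprop : ∀ l' ∈ S, l'.length = 2 * j ∧ ∀ D ∈ l', D ∈ ents := by
    intro l' h
    obtain ⟨f, hf, rfl⟩ := mem_image.1 h
    refine ⟨by simp, fun D hD => ?_⟩
    obtain ⟨i, rfl⟩ := List.mem_ofFn.1 hD
    exact Fintype.mem_piFinset.1 hf i
  set f := fun l' : List (α → ℝ) => |trace (word ν M l')|
  have hlS : l ∈ S := memS l hl (fun D hD => mem_insert_of_mem (List.mem_toFinset.2 hD))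
  obtain ⟨l₀, hl₀, hmax⟩ := exists_max_image S f ⟨l, hlS⟩
  set T := S.filter (fun l' => f l₀ ≤ f l')
  obtain ⟨m, hm, hmc⟩ := exists_max_image T (fun l' => l'.countP (fun D => decide (D = one')))
    ⟨l₀, mem_filter.2 ⟨hl₀, le_rfl⟩⟩
  obtain ⟨hmS, hm0⟩ := mem_filter.1 hm
  obtain ⟨hmlen, hmem⟩ := Sprop m hmS
  have hfl : f l ≤ f m := (hmax l hlS).trans hm0
  obtain ⟨i, rfl⟩ : ∃ i, j = i + 1 := ⟨j - 1, by omega⟩
  have hones : 0 ≤ trace (word ν M (List.replicate (2 * (i + 1)) one')) := by
    have : List.replicate (2 * (i + 1)) (one' : α → ℝ) =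
        one' :: (List.replicate i one' ++ one' :: (List.replicate i one').reverse) := by
      simp [List.reverse_replicate, ← List.replicate_succ, List.replicate_append_replicate]
      omega
    rw [this]
    exact trace_fold_nonneg hν hM _
  by_cases hall : ∀ D ∈ m, D = one'
  · rw [List.eq_replicate_of_mem hall, hmlen] at hfl
    exact hfl.trans (le_of_eq (abs_of_nonneg hones))
  · simp only [not_forall] at hall
    obtain ⟨D, hDm, hD⟩ := hall
    obtain ⟨p, q, hpq⟩ := List.append_of_mem hDm
    set R := q ++ p with hR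
    have hRlen : R.length = i + (i + 1) := by
      have : m.length = p.length + (q.length + 1) := by rw [hpq]; simp
      simp [hR]; omega
    set L₁ := R.take i with hL1
    obtain ⟨E, L₂, hL2⟩ : ∃ E L₂, R.drop i = E :: L₂ := by
      match hh : R.drop i with
      | [] => have := congrArg List.length hh; simp [hRlen] at this
      | E :: L₂ => exact ⟨E, L₂, rfl⟩
    have hRs : R = L₁ ++ E :: L₂ := by rw [← hL2, hL1, List.take_append_drop]
    have hL1len : L₁.length = i := by simp [hL1, hRlen]
    have hL2len : L₂.length = i := by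
      have := congrArg List.length hRs; simp [hRlen, hL1len] at this; omega
    have hperm : m.Perm (D :: (L₁ ++ E :: L₂)) := by
      rw [← hRs, hpq, hR]
      exact List.perm_middle.trans (List.Perm.cons _ List.perm_append_comm)
    have hval : trace (word ν M m) = trace (word ν M (D :: (L₁ ++ E :: L₂))) := by
      rw [← hRs, hpq, trace_word_comm, hR, List.cons_append]
    have hcount := hperm.countP_eq (fun D => decide (D = (one' : α → ℝ)))
    have he : ∀ x ∈ D :: (L₁ ++ E :: L₂), x ∈ ents := fun x hx => hmem x (hperm.mem_iff.2 hx)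
    have h1e : (one' : α → ℝ) ∈ ents := mem_insert_self _ _
    set P := one' :: (L₁ ++ one' :: L₁.reverse) with hP
    set Q := one' :: (L₂.reverse ++ one' :: L₂) with hQ
    have hPS : P ∈ S := memS P (by simp [hP, hL1len]; omega) (by
      intro x hx
      simp [hP] at hx
      rcases hx with rfl | hx | rfl | hx <;> first | exact h1e | exact he x (by simp [hx]))
    have hQS : Q ∈ S := memS Q (by simp [hQ, hL2len]; omega) (by
      intro x hx
      simp [hQ] at hx
      rcases hx with rfl | hx | rfl | hx <;> first | exact h1e | exact he x (by simp [hx]))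
    have hsq := trace_sq_le (ν := ν) hν hM D E (hentsb D (he D (by simp)))
      (hentsb E (he E (by simp))) L₁ L₂
    rw [← hval] at hsq
    have hP0 := trace_fold_nonneg (ν := ν) hν hM L₁
    have hQ0 : 0 ≤ trace (word ν M Q) := by
      have := trace_fold_nonneg (ν := ν) hν hM L₂.reverse
      rwa [List.reverse_reverse] at this
    have hPm : trace (word ν M P) ≤ f m := ((le_abs_self _).trans (hmax P hPS)).trans hm0
    have hQm : trace (word ν M Q) ≤ f m := ((le_abs_self _).trans (hmax Q hQS)).trans hm0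
    by_cases hf0 : f m = 0
    · exact (hfl.trans hf0.le).trans hones
    · exfalso
      have hfpos : 0 < f m := lt_of_le_of_ne (abs_nonneg _) (Ne.symm hf0)
      have hsq' : f m ^ 2 ≤ trace (word ν M P) * trace (word ν M Q) := by
        simpa [f, sq_abs] using hsq
      have hPeq : f l₀ ≤ f P := by
        have : f m ≤ trace (word ν M P) := by nlinarith
        exact
          (hm0.trans this).trans (le_abs_self _)
      have hQeq : f l₀ ≤ f Q := by
        have : f m ≤ trace (word ν M Q) := by nlinarith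
        exact (hm0.trans this).trans (le_abs_self _)
      have c1 := hmc P (mem_filter.2 ⟨hPS, hPeq⟩)
      have c2 := hmc Q (mem_filter.2 ⟨hQS, hQeq⟩)
      simp only [hcount] at c1 c2
      simp [hP, hQ, List.countP_cons, List.countP_append, hD] at c1 c2
      split_ifs at c1 c2 <;> omega

/-- The entries of a word as sums over paths. -/
theorem word_ofFn_apply (n : ℕ) (w : Fin (n + 1) → α → ℝ) (s t : α) :
    word ν M (List.ofFn w) s t = ∑ z : Fin n → α, ∏ i : Fin (n + 1),
      (ν (Fin.cons (α := fun _ => α) s z i) * w i (Fin.cons (α := fun _ => α) s z i)) *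
        M (Fin.cons (α := fun _ => α) s z i) (Fin.snoc (α := fun _ => α) z t i) := by
  induction n generalizing s with
  | zero =>
    simp [word, List.ofFn_succ, diagonal_mul, Fin.snoc]
  | succ n ih =>
    have : word ν M (List.ofFn w) =
        diagonal (fun x => ν x * w 0 x) * (M * word ν M (List.ofFn (fun i => w i.succ))) := by
      rw [List.ofFn_succ]; simp [word, mul_assoc]
    rw [this, diagonal_mul, mul_apply, ← (Fin.consEquiv fun _ => α).sum_comp,
      Fintype.sum_prod_type, mul_sum]
    refine sum_congr rfl (fun u _ => ?_)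
    rw [ih, mul_sum, mul_sum]
    refine sum_congr rfl (fun z _ => ?_)
    simp only [Fin.consEquiv, Equiv.coe_fn_mk]
    rw [Fin.prod_univ_succ (n := n + 1), ← Fin.cons_snoc_eq_snoc_cons]
    simp only [Fin.cons_zero, Fin.cons_succ]
    ring

/-- Trace of a word as a sum over cyclic assignments. -/
theorem trace_word_ofFn (n : ℕ) (w : Fin (n + 1) → α → ℝ) :
    trace (word ν M (List.ofFn w)) =
      ∑ z : Fin (n + 1) → α, (∏ i, ν (z i) * w i (z i)) *
        ∏ i : Fin (n + 1), M (z i) (z (i + 1)) := by
  rw [← (Fin.consEquiv fun _ => α).sum_comp, Fintype.sum_prod_type]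
  simp only [trace, diag_apply]
  refine sum_congr rfl (fun s _ => ?_)
  rw [word_ofFn_apply]
  refine sum_congr rfl (fun z _ => ?_)
  rw [← prod_mul_distrib]
  refine prod_congr rfl (fun i _ => ?_)
  congr 2
  refine Fin.lastCases ?_ (fun j => ?_) i
  · simp [Fin.consEquiv]
  · simp [Fin.consEquiv, Fin.coeSucc_eq_succ]

end

end Vale.Agent.P050
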