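import Vale.Agent.P050.Graph
import Vale.Agent.P050.Trace

/-! Homomorphism sums of signed regular kernels. -/

namespace Vale.Agent.P050

open Finset
open scoped Classical

set_option linter.unusedSectionVars false

noncomputable section

variable {V : Type*} [Fintype V] {α : Type*} [Fintype α]

def sval (s : V → α → ℝ) (x : V → α) : ℝ := ∏ v, s v (x v)

def eprod (K : α → α → ℝ) (hK : ∀ a b, K a b = K b a) (A : Finset (Sym2 V)) (x : V → α) : ℝ :=
  ∏ e ∈ A, Sym2.lift ⟨fun u w => K (x u) (x w), fun _ _ => hK _ _⟩ e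

variable {K : α → α → ℝ} {hK : ∀ a b, K a b = K b a} {ν : α → ℝ}

/-- The weighted homomorphism sum with vertex weights `g`. -/
def wsum (K : α → α → ℝ) (hK : ∀ a b, K a b = K b a) (ν : α → ℝ) (g : V → α → ℝ)
    (A : Finset (Sym2 V)) : ℝ :=
  ∑ x : V → α, (∏ v, ν (x v) * g v (x v)) * eprod K hK A x

theorem eprod_congr {A : Finset (Sym2 V)} {x y : V → α} (h : ∀ v ∈ vsupp A, x v = y v) :
    eprod K hK A x = eprod K hK A y := by
  refine prod_congr rfl (fun e he => ?_)
  induction e using Sym2.ind with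
  | h a b =>
    simp only [Sym2.lift_mk]
    rw [h a (mem_vsupp.2 ⟨_, he, Sym2.mem_mk_left _ _⟩),
      h b (mem_vsupp.2 ⟨_, he, Sym2.mem_mk_right _ _⟩)]

/-- Splitting the variables according to a set of vertices. -/
def split (S : Finset V) : (V → α) ≃ ({v // v ∈ S} → α) × ({v // v ∉ S} → α) :=
  Equiv.piEquivPiSubtypeProd (fun v => v ∈ S) (fun _ => α)

theorem split_symm_mem (S : Finset V) (p : ({v // v ∈ S} → α) × ({v // v ∉ S} → α)) {v : V}
    (h : v ∈ S) : (split S).symm p v = p.1 ⟨v, h⟩ := by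
  simp [split, Equiv.piEquivPiSubtypeProd, h]

theorem split_symm_notMem (S : Finset V) (p : ({v // v ∈ S} → α) × ({v // v ∉ S} → α)) {v : V}
    (h : v ∉ S) : (split S).symm p v = p.2 ⟨v, h⟩ := by
  simp [split, Equiv.piEquivPiSubtypeProd, h]

theorem prod_split (S : Finset V) (w : V → α → ℝ)
    (p : ({v // v ∈ S} → α) × ({v // v ∉ S} → α)) :
    ∏ v, w v ((split S).symm p v) =
      (∏ v : {v // v ∈ S}, w v (p.1 v)) * ∏ v : {v // v ∉ S}, w v (p.2 v) := by
  rw [← Fintype.prod_subtype_mul_prod_subtype (fun v => v ∈ S)]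
  congr 1 <;> refine Finset.prod_congr ?_ (fun v _ => ?_)
  · ext; simp
  · rw [split_symm_mem S p v.2]
  · ext; simp
  · rw [split_symm_notMem S p v.2]

theorem sum_prod_marginal {ι : Type*} [Fintype ι] [DecidableEq ι] (w : ι → α → ℝ) :
    ∑ r : ι → α, ∏ v, w v (r v) = ∏ v, ∑ s, w v s := (Fintype.prod_sum w).symm

/-- Weights outside the support only matter through their averages. -/
theorem wsum_congr {A : Finset (Sym2 V)} {g g' : V → α → ℝ} {S : Finset V} (hS : vsupp A ⊆ S)
    (hin : ∀ v ∈ S, g v = g' v)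
    (hout : ∀ v, v ∉ S → ∑ s, ν s * g v s = ∑ s, ν s * g' v s) :
    wsum K hK ν g A = wsum K hK ν g' A := by
  have key : ∀ g : V → α → ℝ, wsum K hK ν g A =
      ∑ y : {v // v ∈ S} → α, (∏ v : {v // v ∈ S}, ν (y v) * g v (y v)) *
        (∑ r : {v // v ∉ S} → α, (∏ v : {v // v ∉ S}, ν (r v) * g v (r v)) *
          eprod K hK A ((split S).symm (y, r))) := by
    intro g
    rw [wsum, ← (split S).symm.sum_comp, Fintype.sum_prod_type]
    refine sum_congr rfl (fun y _ => ?_)
    rw [mul_sum]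
    refine sum_congr rfl (fun r _ => ?_)
    rw [prod_split S (fun v s => ν s * g v s), mul_assoc]
  rw [key, key]
  refine sum_congr rfl (fun y _ => ?_)
  congr 1
  · exact prod_congr rfl (fun v _ => by rw [hin v v.2])
  · rcases isEmpty_or_nonempty ({v // v ∉ S} → α) with h | ⟨⟨r₀⟩⟩
    · simp
    · have hc : ∀ r, eprod K hK A ((split S).symm (y, r)) =
          eprod K hK A ((split S).symm (y, r₀)) := fun r => eprod_congr (fun v hv => by
        rw [split_symm_mem S _ (hS hv), split_symm_mem S _ (hS hv)])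
      simp only [hc, ← sum_mul, sum_prod_marginal (fun (v : {v // v ∉ S}) s => ν s * g v s),
        sum_prod_marginal (fun (v : {v // v ∉ S}) s => ν s * g' v s)]
      congr 1
      exact prod_congr rfl (fun v _ => hout v v.2)

theorem wsum_empty (g : V → α → ℝ) :
    wsum K hK ν g ∅ = ∏ v, ∑ s, ν s * g v s := by
  simp [wsum, eprod, sum_prod_marginal (fun v s => ν s * g v s)]

theorem wsum_union {A B : Finset (Sym2 V)} {g : V → α → ℝ}
    (hg : ∀ v, ∑ s, ν s * g v s = 1) (hd : Disjoint (vsupp A) (vsupp B)) :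
    wsum K hK ν g (A ∪ B) = wsum K hK ν g A * wsum K hK ν g B := by
  have hAB : Disjoint A B := by
    rw [Finset.disjoint_left]
    intro e he he'
    induction e using Sym2.ind with
    | h a b =>
      exact Finset.disjoint_left.1 hd (mem_vsupp.2 ⟨_, he, Sym2.mem_mk_left _ _⟩)
        (mem_vsupp.2 ⟨_, he', Sym2.mem_mk_left _ _⟩)
  set S := vsupp A with hS
  rcases isEmpty_or_nonempty (V → α) with h | ⟨⟨x₀⟩⟩
  · simp [wsum]
  set p₀ := split S x₀
  set L := fun (C : Finset (Sym2 V)) => ∑ y : {v // v ∈ S} → α,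
    (∏ v : {v // v ∈ S}, ν (y v) * g v (y v)) * eprod K hK C ((split S).symm (y, p₀.2))
  set R := fun (C : Finset (Sym2 V)) => ∑ r : {v // v ∉ S} → α,
    (∏ v : {v // v ∉ S}, ν (r v) * g v (r v)) * eprod K hK C ((split S).symm (p₀.1, r))
  have key : ∀ C D, vsupp C ⊆ S → Disjoint S (vsupp D) → Disjoint C D →
      wsum K hK ν g (C ∪ D) = L C * R D := by
    intro C D hC hD hCD
    rw [wsum, ← (split S).symm.sum_comp, Fintype.sum_prod_type]
    simp only [L, R]
    rw [sum_mul_sum]
    refine sum_congr rfl (fun y _ => sum_congr rfl (fun r _ => ?_))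
    have h1 : eprod K hK (C ∪ D) ((split S).symm (y, r)) =
        eprod K hK C ((split S).symm (y, p₀.2)) * eprod K hK D ((split S).symm (p₀.1, r)) := by
      have e : eprod K hK (C ∪ D) ((split S).symm (y, r)) =
          eprod K hK C ((split S).symm (y, r)) * eprod K hK D ((split S).symm (y, r)) := by
        simp only [eprod, prod_union hCD]
      rw [e]
      congr 1 <;> refine eprod_congr (fun v hv => ?_)
      · rw [split_symm_mem S _ (hC hv), split_symm_mem S _ (hC hv)]
      · have hn : v ∉ S := fun h => Finset.disjoint_left.1 hD h hv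
        rw [split_symm_notMem S _ hn, split_symm_notMem S _ hn]
    rw [h1, prod_split S (fun v s => ν s * g v s)]
    ring
  have e0 : vsupp (∅ : Finset (Sym2 V)) = ∅ := by simp [vsupp]
  have h1 := key A B (subset_refl _) hd hAB
  have h2 := key A ∅ (subset_refl _) (by simp [e0]) (disjoint_empty_right A)
  have h3 := key ∅ B (by simp [e0]) hd (disjoint_empty_left B)
  have h4 := key ∅ ∅ (by simp [e0]) (by simp [e0]) (disjoint_empty_right _)
  rw [union_empty] at h2 h4
  rw [empty_union] at h3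
  have : wsum K hK ν g ∅ = 1 := by rw [wsum_empty, prod_eq_one (fun v _ => hg v)]
  rw [this] at h4
  rw [h1, h2, h3]
  linear_combination (L A * R B) * h4

theorem abs_eprod_le {δ : ℝ} (hKb : ∀ a b, |K a b| ≤ δ) (A : Finset (Sym2 V)) (x : V → α) :
    |eprod K hK A x| ≤ δ ^ A.card := by
  rw [eprod, Finset.abs_prod, ← prod_const]
  refine prod_le_prod (fun e _ => abs_nonneg _) (fun e _ => ?_)
  induction e using Sym2.ind with
  | h a b => simpa using hKb _ _

/-- The trivial bound. -/
theorem abs_wsum_le {δ : ℝ} (hν : ∀ s, 0 ≤ ν s) (hKb : ∀ a b, |K a b| ≤ δ) (g : V → α → ℝ)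
    (A : Finset (Sym2 V)) :
    |wsum K hK ν g A| ≤ δ ^ A.card * ∏ v, ∑ s, ν s * |g v s| := by
  rw [← sum_prod_marginal (fun v s => ν s * |g v s|), mul_sum]
  refine (abs_sum_le_sum_abs _ _).trans (sum_le_sum (fun x _ => ?_))
  rw [abs_mul, Finset.abs_prod]
  simp only [abs_mul, abs_of_nonneg (hν _)]
  rw [mul_comm (δ ^ A.card)]
  exact mul_le_mul_of_nonneg_left (abs_eprod_le hKb A x)
    (prod_nonneg (fun v _ => mul_nonneg (hν _) (abs_nonneg _)))

theorem wsum_update_add (g : V → α → ℝ) (A : Finset (Sym2 V)) (u : V) (p q : α → ℝ) :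
    wsum K hK ν (Function.update g u (p + q)) A =
      wsum K hK ν (Function.update g u p) A + wsum K hK ν (Function.update g u q) A := by
  simp only [wsum, ← sum_add_distrib]
  refine sum_congr rfl (fun x _ => ?_)
  rw [← add_mul]
  congr 1
  have e : ∀ h : α → ℝ, ∏ v, ν (x v) * Function.update g u h v (x v) =
      (ν (x u) * h (x u)) * ∏ v ∈ univ.erase u, ν (x v) * g v (x v) := by
    intro h
    rw [← mul_prod_erase univ _ (mem_univ u), Function.update_self]
    congr 1
    refine prod_congr rfl (fun v hv => ?_)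
    rw [Function.update_of_ne (mem_erase.1 hv).1]
  rw [e, e, e, Pi.add_apply]
  ring

/-- A leaf with constant weight kills the sum, by regularity. -/
theorem wsum_leaf (hreg : ∀ s, ∑ t, ν t * K s t = 0) {g : V → α → ℝ} {A : Finset (Sym2 V)}
    (hloop : ∀ e ∈ A, ¬ e.IsDiag) {u : V} (hu : edeg A u = 1) (hgu : g u = fun _ => 1) :
    wsum K hK ν g A = 0 := by
  obtain ⟨e, he⟩ := card_eq_one.1 hu
  obtain ⟨heA, hue⟩ := mem_filter.1 (he ▸ mem_singleton_self e)
  obtain ⟨w, rfl⟩ := hue
  have hwu : w ≠ u := fun h => hloop _ heA (by simp [h])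
  rw [wsum, ← (split (univ.erase u)).symm.sum_comp, Fintype.sum_prod_type]
  refine sum_eq_zero (fun y _ => ?_)
  haveI : Unique {v // v ∉ univ.erase u} :=
    ⟨⟨⟨u, by simp⟩⟩, fun v => Subtype.ext (by simpa using v.2)⟩
  rw [← (Equiv.funUnique {v // v ∉ univ.erase u} α).symm.sum_comp]
  have : ∀ t, (∏ v, ν ((split (univ.erase u)).symm (y,
        (Equiv.funUnique {v // v ∉ univ.erase u} α).symm t) v) *
      g v ((split (univ.erase u)).symm (y,
        (Equiv.funUnique {v // v ∉ univ.erase u} α).symm t) v)) *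
      eprod K hK A ((split (univ.erase u)).symm (y,
        (Equiv.funUnique {v // v ∉ univ.erase u} α).symm t)) =
      (ν t * K (y ⟨w, by simp [hwu]⟩) t) *
        ((∏ v : {v // v ∈ univ.erase u}, ν (y v) * g v (y v)) *
        ∏ f ∈ A.erase s(u, w), Sym2.lift ⟨fun a b => K
          ((split (univ.erase u)).symm (y,
            (Equiv.funUnique {v // v ∉ univ.erase u} α).symm (y ⟨w, by simp [hwu]⟩)) a)
          ((split (univ.erase u)).symm (y,
            (Equiv.funUnique {v // v ∉ univ.erase u} α).symm (y ⟨w, by simp [hwu]⟩)) b),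
          fun _ _ => hK _ _⟩ f) := by
    intro t
    rw [prod_split (univ.erase u) (fun v s => ν s * g v s), eprod, ← mul_prod_erase A _ heA,
      Fintype.prod_unique (fun v : {v // v ∉ univ.erase u} => _)]
    have hdef : ((default : {v // v ∉ univ.erase u}) : V) = u := by
      simpa using (default : {v // v ∉ univ.erase u}).2
    have h2 : ∀ f ∈ A.erase s(u, w), ∀ a ∈ f, a ≠ u := by
      intro f hf a ha h
      subst h
      have : f ∈ A.filter (fun e => a ∈ e) := mem_filter.2 ⟨(mem_erase.1 hf).2, ha⟩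
      rw [he, mem_singleton] at this
      exact (mem_erase.1 hf).1 this
    have h3 : ∏ f ∈ A.erase s(u, w), Sym2.lift ⟨fun a b => K
        ((split (univ.erase u)).symm (y,
          (Equiv.funUnique {v // v ∉ univ.erase u} α).symm t) a)
        ((split (univ.erase u)).symm (y,
          (Equiv.funUnique {v // v ∉ univ.erase u} α).symm t) b), fun _ _ => hK _ _⟩ f =
        ∏ f ∈ A.erase s(u, w), Sym2.lift ⟨fun a b => K
        ((split (univ.erase u)).symm (y,
          (Equiv.funUnique {v // v ∉ univ.erase u} α).symm (y ⟨w, by simp [hwu]⟩)) a)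
        ((split (univ.erase u)).symm (y,
          (Equiv.funUnique {v // v ∉ univ.erase u} α).symm (y ⟨w, by simp [hwu]⟩)) b),
          fun _ _ => hK _ _⟩ f := by
      refine prod_congr rfl (fun f hf => ?_)
      have h2f := h2 f hf
      induction f using Sym2.ind with
      | h a b =>
        have ha : a ∈ univ.erase u := by simp [h2f a (Sym2.mem_mk_left _ _)]
        have hb : b ∈ univ.erase u := by simp [h2f b (Sym2.mem_mk_right _ _)]
        simp only [Sym2.lift_mk, split_symm_mem _ _ ha, split_symm_mem _ _ hb]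
    rw [h3]
    simp only [Sym2.lift_mk, hdef, hgu, Equiv.funUnique_symm_apply, uniqueElim_const,
      split_symm_notMem _ _ (show u ∉ univ.erase u by simp),
      split_symm_mem _ _ (show w ∈ univ.erase u by simp [hwu]), hK t (y ⟨w, by simp [hwu]⟩)]
    ring
  simp only [this, ← sum_mul, hreg, zero_mul]

/-- Scaled form of the folded trace inequality. -/
theorem abs_cycle_sum_le (hν : ∀ s, 0 ≤ ν s) (hK : ∀ a b, K a b = K b a) {n : ℕ}
    (hn : Even (n + 1)) (w : Fin (n + 1) → α → ℝ) (B : Fin (n + 1) → ℝ)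
    (hw : ∀ i s, |w i s| ≤ B i) (hB : ∀ i, 0 ≤ B i) :
    |∑ z : Fin (n + 1) → α, (∏ i, ν (z i) * w i (z i)) * ∏ i : Fin (n + 1), K (z i) (z (i + 1))|
      ≤ (∏ i, B i) * Matrix.trace (word ν (Matrix.of K) (List.replicate (n + 1) one')) := by
  obtain ⟨j, hj⟩ := hn
  have hM : (Matrix.of K).transpose = Matrix.of K := by ext a b; simp [hK a b]
  have hfac : ∀ (z : Fin (n + 1) → α), (∏ i, ν (z i) * w i (z i)) =
      (∏ i, B i) * ∏ i, ν (z i) * (w i (z i) / B i) := by
    intro z
    rw [← prod_mul_distrib]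
    refine prod_congr rfl (fun i _ => ?_)
    by_cases h : B i = 0
    · have : w i (z i) = 0 := abs_nonpos_iff.1 (h ▸ hw i (z i))
      simp [this]
    · field_simp
  have := trace_word_ofFn (ν := ν) (M := Matrix.of K) n (fun i s => w i s / B i)
  simp only [Matrix.of_apply] at this
  simp only [hfac, mul_assoc, ← mul_sum, ← this]
  rw [abs_mul, abs_of_nonneg (prod_nonneg (fun i _ => hB i))]
  refine mul_le_mul_of_nonneg_left ?_ (prod_nonneg (fun i _ => hB i))
  have h := abs_trace_le (ν := ν) (M := Matrix.of K) hν hM (j := j) (by omega)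
    (List.ofFn (fun i s => w i s / B i)) (by simp; omega) ?_
  · rwa [show 2 * j = n + 1 by omega] at h
  · intro D hD s
    obtain ⟨i, rfl⟩ := List.mem_ofFn.1 hD
    simp only [abs_div, abs_of_nonneg (hB i)]
    exact div_le_one_of_le₀ (hw i s) (hB i)

/-- The value of a plain cycle of length `k`. -/
def cycVal (K : α → α → ℝ) (ν : α → ℝ) (k : ℕ) : ℝ :=
  Matrix.trace (word ν (Matrix.of K) (List.replicate k one'))

theorem cycVal_nonneg (hν : ∀ s, 0 ≤ ν s) (hK : ∀ a b, K a b = K b a) {k : ℕ} (hk : Even k)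
    (hk0 : 0 < k) : 0 ≤ cycVal K ν k := by
  obtain ⟨n, rfl⟩ : ∃ n, k = n + 1 := ⟨k - 1, by omega⟩
  have := abs_cycle_sum_le (ν := ν) hν hK hk (fun _ _ => 1) (fun _ => 1) (by simp) (by simp)
  rw [prod_const_one, one_mul] at this
  exact (abs_nonneg _).trans this

theorem cycSplit {A : Finset (Sym2 V)} {n : ℕ} {c : ℕ → V} (hc : IsCyc A (n + 1) c)
    (g : V → α → ℝ) :
    wsum K hK ν g A = ∑ r : {v // v ∉ (range (n + 1)).image c} → α,
      (∏ v : {v // v ∉ (range (n + 1)).image c}, ν (r v) * g v (r v)) *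
      ∑ z : Fin (n + 1) → α, (∏ i, ν (z i) * g (c i) (z i)) *
        ((∏ i : Fin (n + 1), K (z i) (z (i + 1))) *
          eprod K hK (A \ cycEdges (n + 1) c) (fun v =>
            if h : ∃ i : Fin (n + 1), c i = v then z h.choose
            else if h' : v ∉ (range (n + 1)).image c then r ⟨v, h'⟩ else z 0)) := by
  set S := (range (n + 1)).image c with hS
  have hmem : ∀ i : Fin (n + 1), c i ∈ S := fun i => mem_image.2 ⟨i, mem_range.2 i.2, rfl⟩
  let φ : Fin (n + 1) → {v // v ∈ S} := fun i => ⟨c i, hmem i⟩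
  have hφ : Function.Bijective φ := by
    constructor
    · intro i j h
      exact Fin.ext (hc.2.1 i.2 j.2 (congrArg Subtype.val h))
    · rintro ⟨v, hv⟩
      obtain ⟨i, hi, rfl⟩ := mem_image.1 hv
      exact ⟨⟨i, mem_range.1 hi⟩, rfl⟩
  let E := Equiv.ofBijective φ hφ
  rw [wsum, ← (split S).symm.sum_comp, Fintype.sum_prod_type, sum_comm]
  refine sum_congr rfl (fun r _ => ?_)
  rw [mul_sum, ← (E.arrowCongr (Equiv.refl α)).sum_comp]
  refine sum_congr rfl (fun z _ => ?_)
  set x := (split S).symm ((E.arrowCongr (Equiv.refl α)) z, r)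
  have hx : ∀ i : Fin (n + 1), x (c i) = z i := by
    intro i
    simp only [x]
    rw [split_symm_mem S _ (hmem i)]
    simp only [Equiv.arrowCongr_apply, Equiv.refl_apply, Function.comp_apply, Equiv.coe_refl, id]
    congr 1
    rw [Equiv.symm_apply_eq]
    rfl
  have hp : ∏ v, ν (x v) * g v (x v) = (∏ i, ν (z i) * g (c i) (z i)) *
      ∏ v : {v // v ∉ S}, ν (r v) * g v (r v) := by
    simp only [x]
    rw [prod_split S (fun v s => ν s * g v s)]
    congr 1
    rw [← E.prod_comp]
    refine prod_congr rfl (fun i _ => ?_)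
    have hz : (E.arrowCongr (Equiv.refl α)) z (E i) = z i := by simp [Equiv.arrowCongr]
    show ν _ * g (c i) _ = _
    dsimp only
    rw [hz]
  rw [hp]
  have he : eprod K hK A x = (∏ i : Fin (n + 1), K (z i) (z (i + 1))) *
      eprod K hK (A \ cycEdges (n + 1) c) x := by
    rw [eprod, eprod, ← prod_sdiff hc.subset, mul_comm]
    congr 1
    rw [cycEdges, prod_image hc.edge_inj, ← Fin.prod_univ_eq_prod_range]
    refine prod_congr rfl (fun i _ => ?_)
    simp only [Sym2.lift_mk]
    have := hx (i + 1)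
    rw [Fin.val_add, Fin.val_one', Nat.add_mod_mod] at this
    rw [hx, this]
  have hxeq : x = fun v => if h : ∃ i : Fin (n + 1), c i = v then z h.choose
      else if h' : v ∉ S then r ⟨v, h'⟩ else z 0 := by
    funext v
    by_cases h : ∃ i : Fin (n + 1), c i = v
    · rw [dif_pos h]
      conv_lhs => rw [← h.choose_spec]
      exact hx _
    · rw [dif_neg h]
      have hv : v ∉ S := fun hv => by
        obtain ⟨i, hi, rfl⟩ := mem_image.1 hv
        exact h ⟨⟨i, mem_range.1 hi⟩, rfl⟩
      rw [dif_pos hv]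
      exact split_symm_notMem S _ hv
  rw [he, hxeq]
  ring

/-- Plain cycles. -/
theorem wsum_cycle (hν1 : ∑ s, ν s = 1) {A : Finset (Sym2 V)} {n : ℕ} {c : ℕ → V}
    (hc : IsCyc A (n + 1) c) (hA : A = cycEdges (n + 1) c) :
    wsum K hK ν (fun _ _ => 1) A = cycVal K ν (n + 1) := by
  rw [cycSplit hc]
  have h := trace_word_ofFn (ν := ν) (M := Matrix.of K) n (fun _ => one')
  simp only [Matrix.of_apply, List.ofFn_const, one'] at h
  have : A \ cycEdges (n + 1) c = ∅ := by rw [← hA, sdiff_self]; rfl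
  simp only [mul_one] at h
  simp only [this, eprod, prod_empty, mul_one, ← sum_mul, cycVal]
  rw [← h, sum_prod_marginal (fun _ s => ν s)]
  simp [hν1]

/-- The folded bound for a sum containing an induced even cycle. -/
theorem abs_wsum_cycle_le (hν : ∀ s, 0 ≤ ν s) (hν1 : ∑ s, ν s = 1) {δ : ℝ}
    (hKb : ∀ a b, |K a b| ≤ δ) (hδ : 0 ≤ δ) {A : Finset (Sym2 V)} {n : ℕ} {c : ℕ → V}
    (hc : IsCyc A (n + 1) c) (hn : Even (n + 1))
    (hind : ∀ e ∈ A, e ∉ cycEdges (n + 1) c → ∀ a b, a < n + 1 → b < n + 1 → e ≠ s(c a, c b))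
    (g : V → α → ℝ) (G : V → ℝ) (hg : ∀ v s, |g v s| ≤ G v) (hG : ∀ v, 0 ≤ G v) :
    |wsum K hK ν g A| ≤
      (∏ v, G v) * δ ^ (A \ cycEdges (n + 1) c).card * cycVal K ν (n + 1) := by
  set S := (range (n + 1)).image c with hS
  set X := A \ cycEdges (n + 1) c
  have hinj : ∀ i j : Fin (n + 1), c i = c j → i = j :=
    fun i j h => Fin.ext (hc.2.1 i.2 j.2 h)
  have hXone : ∀ e ∈ X, ∀ i j : Fin (n + 1), c i ∈ e → c j ∈ e → i = j := by
    intro e he i j hi hj
    by_contra hne
    obtain ⟨heA, heC⟩ := mem_sdiff.1 he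
    exact hind e heA heC i j i.2 j.2
      ((Sym2.mem_and_mem_iff (fun h => hne (hinj i j h))).1 ⟨hi, hj⟩)
  have hSG : (∏ i : Fin (n + 1), G (c i)) * ∏ v : {v // v ∉ S}, G v = ∏ v, G v := by
    rw [← Fintype.prod_subtype_mul_prod_subtype (fun v => v ∈ S) G]
    congr 1
    rw [← Finset.prod_subtype S (fun _ => Iff.rfl) G, hS, prod_image (hc.2.1.mono (by intro x hx; simpa using hx)),
      ← Fin.prod_univ_eq_prod_range]
  rw [cycSplit hc]
  refine (abs_sum_le_sum_abs _ _).trans ?_
  have hsum : ∑ r : {v // v ∉ S} → α, ∏ v : {v // v ∉ S}, ν (r v) * G v =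
      ∏ v : {v // v ∉ S}, G v := by
    rw [sum_prod_marginal (fun (v : {v // v ∉ S}) s => ν s * G v)]
    refine prod_congr rfl (fun v _ => ?_)
    rw [← sum_mul, hν1, one_mul]
  rw [← hSG, ← hsum]
  conv_rhs => simp only [mul_sum, sum_mul]
  refine sum_le_sum (fun r _ => ?_)
  rw [abs_mul, Finset.abs_prod]
  have hout : ∏ v : {v // v ∉ S}, |ν (r v) * g v (r v)| ≤ ∏ v : {v // v ∉ S}, ν (r v) * G v :=
    prod_le_prod (fun v _ => abs_nonneg _) (fun v _ => by
      rw [abs_mul, abs_of_nonneg (hν _)]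
      exact mul_le_mul_of_nonneg_left (hg _ _) (hν _))
  -- the weight of an edge outside the cycle is carried by its endpoint on the cycle
  set Xo := X.filter (fun e => ∀ i : Fin (n + 1), c i ∉ e)
  set Xi := fun i : Fin (n + 1) => X.filter (fun e => c i ∈ e)
  have hpart : X = Xo ∪ univ.biUnion Xi := by
    ext e
    simp only [Xo, Xi, mem_union, mem_biUnion, mem_filter, mem_univ, true_and]
    constructor
    · intro he
      by_cases h : ∀ i : Fin (n + 1), c i ∉ e
      · exact .inl ⟨he, h⟩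
      · simp only [not_forall, not_not] at h
        obtain ⟨i, hi⟩ := h
        exact .inr ⟨i, he, hi⟩
    · rintro (h | ⟨i, h⟩) <;> exact h.1
  have hd1 : Disjoint Xo (univ.biUnion Xi) := by
    rw [Finset.disjoint_left]
    simp only [Xo, Xi, mem_biUnion, mem_filter, mem_univ, true_and]
    rintro e ⟨_, h⟩ ⟨i, _, hi⟩
    exact h i hi
  have hd2 : Set.PairwiseDisjoint ((univ : Finset (Fin (n + 1))) : Set (Fin (n + 1))) Xi := by
    intro i _ j _ hij
    rw [Function.onFun, Finset.disjoint_left]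
    simp only [Xi, mem_filter]
    rintro e ⟨he, hi⟩ ⟨_, hj⟩
    exact hij (hXone e he i j hi hj)
  let xof : (Fin (n + 1) → α) → V → α := fun z v =>
    if h : ∃ i : Fin (n + 1), c i = v then z h.choose
    else if h' : v ∉ S then r ⟨v, h'⟩ else z 0
  have hci : ∀ z (i : Fin (n + 1)), xof z (c i) = z i := by
    intro z i
    have h : ∃ j : Fin (n + 1), c j = c i := ⟨i, rfl⟩
    simp only [xof, dif_pos h]
    rw [hinj _ _ h.choose_spec]
  have hother : ∀ z z' v, (∀ i : Fin (n + 1), c i = v → z i = z' i) →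
      xof z v = xof z' v := by
    intro z z' v h
    by_cases hv : ∃ i : Fin (n + 1), c i = v
    · simp only [xof, dif_pos hv]; exact h _ hv.choose_spec
    · simp only [xof, dif_neg hv]
      have : v ∉ S := fun hv' => by
        obtain ⟨i, hi, rfl⟩ := mem_image.1 hv'
        exact hv ⟨⟨i, mem_range.1 hi⟩, rfl⟩
      simp only [dif_pos this]
  rcases isEmpty_or_nonempty α with hα | ⟨⟨a₀⟩⟩
  · simp at hν1
  set z₀ : Fin (n + 1) → α := fun _ => a₀
  set w : Fin (n + 1) → α → ℝ := fun i s =>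
    g (c i) s * eprod K hK (Xi i) (xof (Function.update z₀ i s))
  set cst := eprod K hK Xo (xof z₀)
  have hfac : ∀ z, eprod K hK X (xof z) =
      cst * ∏ i, eprod K hK (Xi i) (xof (Function.update z₀ i (z i))) := by
    intro z
    have : eprod K hK X (xof z) =
        eprod K hK Xo (xof z) * ∏ i, eprod K hK (Xi i) (xof z) := by
      simp only [eprod]
      conv_lhs => rw [hpart]
      rw [prod_union hd1, prod_biUnion hd2]
    rw [this]
    congr 1
    · refine eprod_congr (fun v hv => hother _ _ v (fun i hiv => ?_))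
      obtain ⟨e, he, hve⟩ := mem_vsupp.1 hv
      exact absurd (hiv ▸ hve) ((mem_filter.1 he).2 i)
    · refine prod_congr rfl (fun i _ => eprod_congr (fun v hv => hother _ _ v (fun j hjv => ?_)))
      obtain ⟨e, he, hve⟩ := mem_vsupp.1 hv
      obtain rfl := hXone e (mem_filter.1 he).1 i j (mem_filter.1 he).2 (hjv ▸ hve)
      simp
  have hcard : X.card = Xo.card + ∑ i, (Xi i).card := by
    rw [← card_biUnion hd2, ← card_union_of_disjoint hd1, ← hpart]
  have hinner : |∑ z : Fin (n + 1) → α, (∏ i, ν (z i) * g (c i) (z i)) *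
      ((∏ i : Fin (n + 1), K (z i) (z (i + 1))) * eprod K hK X (xof z))| ≤
      δ ^ X.card * ((∏ i : Fin (n + 1), G (c i)) * cycVal K ν (n + 1)) := by
    have e1 : ∀ z : Fin (n + 1) → α, (∏ i, ν (z i) * g (c i) (z i)) *
        ((∏ i : Fin (n + 1), K (z i) (z (i + 1))) * eprod K hK X (xof z)) =
        cst * ((∏ i, ν (z i) * w i (z i)) * ∏ i : Fin (n + 1), K (z i) (z (i + 1))) := by
      intro z
      rw [hfac z]
      simp only [w, ← mul_assoc (ν _), prod_mul_distrib]
      ring
    simp only [e1, ← mul_sum, abs_mul]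
    have hb := abs_cycle_sum_le (ν := ν) hν hK hn w
      (fun i => G (c i) * δ ^ (Xi i).card) (fun i s => by
        simp only [w, abs_mul]
        exact mul_le_mul (hg _ _) (abs_eprod_le hKb _ _) (abs_nonneg _) (hG _))
      (fun i => mul_nonneg (hG _) (pow_nonneg hδ _))
    refine (mul_le_mul (abs_eprod_le hKb _ _) hb (abs_nonneg _) (pow_nonneg hδ _)).trans
      (le_of_eq ?_)
    rw [prod_mul_distrib, prod_pow_eq_pow_sum, hcard, pow_add, cycVal]
    ring
  refine (mul_le_mul hout hinner (abs_nonneg _)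
    (prod_nonneg (fun v _ => mul_nonneg (hν _) (hG _)))).trans (le_of_eq ?_)
  ring

end

end Vale.Agent.P050
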