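import Vale.Agent.P050.Polymer
import Vale.Agent.P050.Model

/-! The lower bound for regular signed kernels of sup norm `O(1 / Δ)`. -/

namespace Vale.Agent.P050

open Finset
open scoped Classical

set_option linter.unusedSectionVars false

noncomputable section

variable {V : Type*} [Fintype V] {α : Type*} [Fintype α]
  {K : α → α → ℝ} {hK : ∀ a b, K a b = K b a} {ν : α → ℝ}

/-- Squared deviation of a weight from one. -/
def dev (ν : α → ℝ) (f : α → ℝ) : ℝ := ∑ s, ν s * (f s - 1) ^ 2

def clip (f : V → α → ℝ) (S : Finset V) : V → α → ℝ := fun v => if v ∈ S then f v else fun _ => 1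

theorem wsum_update_sum (g : V → α → ℝ) (A : Finset (Sym2 V)) (u : V) (p : α → ℝ) :
    wsum K hK ν (Function.update g u p) A = ∑ t, p t *
      wsum K hK ν (Function.update g u (fun s => if s = t then 1 else 0)) A := by
  simp only [wsum, mul_sum]
  rw [sum_comm]
  refine sum_congr rfl (fun x _ => ?_)
  have e : ∀ h : α → ℝ, ∏ v, ν (x v) * Function.update g u h v (x v) =
      (ν (x u) * h (x u)) * ∏ v ∈ univ.erase u, ν (x v) * g v (x v) := by
    intro h
    rw [← mul_prod_erase univ _ (mem_univ u), Function.update_self]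
    congr 1
    refine prod_congr rfl (fun v hv => ?_)
    rw [Function.update_of_ne (mem_erase.1 hv).1]
  simp only [e]
  rw [sum_eq_single (x u) (fun t _ ht => by simp [Ne.symm ht])
    (fun h => absurd (mem_univ _) h)]
  simp
  ring

variable {E : Finset (Sym2 V)} {δ : ℝ} {f : V → α → ℝ}

/-- The hypotheses of the core estimate. -/
structure Setting (K : α → α → ℝ) (ν : α → ℝ) (E : Finset (Sym2 V)) (δ : ℝ)
    (f : V → α → ℝ) (col : V → Bool) (Δ : ℕ) : Prop where
  nu_nonneg : ∀ s, 0 ≤ ν s
  nu_sum : ∑ s, ν s = 1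
  ker_symm : ∀ a b, K a b = K b a
  ker_bound : ∀ a b, |K a b| ≤ δ
  regular : ∀ s, ∑ t, ν t * K s t = 0
  delta_pos : 0 < δ
  loopless : ∀ e ∈ E, ¬ e.IsDiag
  proper : ∀ a b, s(a, b) ∈ E → col a ≠ col b
  degree : ∀ v, edeg E v ≤ Δ
  small : (Δ : ℝ) * δ ≤ 1 / 245
  f_mean : ∀ v, ∑ s, ν s * f v s = 1
  f_bound : ∀ v s, |f v s| ≤ 101 / 100

variable {col : V → Bool} {Δ : ℕ}

theorem Setting.dev_nonneg (h : Setting K ν E δ f col Δ) (v : V) : 0 ≤ dev ν (f v) :=
  sum_nonneg (fun s _ => mul_nonneg (h.nu_nonneg s) (sq_nonneg _))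

theorem Setting.avg_abs_le (h : Setting K ν E δ f col Δ) {p : α → ℝ} {P : ℝ}
    (hp : ∀ s, |p s| ≤ P) : ∑ s, ν s * |p s| ≤ P := by
  calc ∑ s, ν s * |p s| ≤ ∑ s, ν s * P :=
        sum_le_sum (fun s _ => mul_le_mul_of_nonneg_left (hp s) (h.nu_nonneg s))
    _ = P := by rw [← sum_mul, h.nu_sum, one_mul]

/-- The term with one centred weight, in a set containing an induced even cycle. -/
theorem Setting.centred_term (h : Setting K ν E δ f col Δ) {A : Finset (Sym2 V)} {n : ℕ}
    {c : ℕ → V} (hc : IsCyc A (n + 1) c) (hn : Even (n + 1))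
    (hind : ∀ e ∈ A, e ∉ cycEdges (n + 1) c → ∀ a b, a < n + 1 → b < n + 1 → e ≠ s(c a, c b))
    (g : V → α → ℝ) (hg : ∀ v ∈ vsupp A, ∀ s, |g v s| ≤ 101 / 100)
    (hg' : ∀ v, v ∉ vsupp A → g v = fun _ => 1)
    {u : V} (hu : u ∈ vsupp A) {η : ℝ} (hη : 0 < η) :
    |wsum K hK ν (Function.update g u (fun s => f u s - 1)) A| ≤
      (101 / 100 : ℝ) ^ (vsupp A).card *
        (η * (δ ^ (A \ cycEdges (n + 1) c).card * cycVal K ν (n + 1)) +
          1 / (4 * η) * (δ ^ A.card * dev ν (f u))) := by
  set P := (101 / 100 : ℝ) ^ (vsupp A).card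
  set cf := fun t => wsum K hK ν (Function.update g u (fun s => if s = t then 1 else 0)) A
  have hG : ∏ v, (if v ∈ vsupp A then (101 / 100 : ℝ) else 1) = P := by
    rw [prod_ite]; simp [P, div_pow]
  have htriv : ∀ t, |cf t| ≤ P * δ ^ A.card * ν t := by
    intro t
    refine (abs_wsum_le h.nu_nonneg h.ker_bound _ A).trans ?_
    rw [mul_comm P, mul_assoc]
    refine mul_le_mul_of_nonneg_left ?_ (pow_nonneg h.delta_pos.le _)
    rw [← mul_prod_erase univ _ (mem_univ u), Function.update_self, mul_comm P]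
    refine mul_le_mul ?_ ?_ (prod_nonneg (fun v _ => sum_nonneg (fun s _ =>
      mul_nonneg (h.nu_nonneg s) (abs_nonneg _)))) (h.nu_nonneg t)
    · rw [sum_eq_single t (fun s _ hs => by simp [hs]) (fun h => absurd (mem_univ _) h)]
      simp
    · rw [← hG]
      refine (prod_le_prod (g := fun v => if v ∈ vsupp A then (101 / 100 : ℝ) else 1)
        (fun v _ => sum_nonneg (fun s _ =>
        mul_nonneg (h.nu_nonneg s) (abs_nonneg _))) (fun v hv => ?_)).trans ?_
      · rw [Function.update_of_ne (mem_erase.1 hv).1]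
        split_ifs with hvA
        · exact h.avg_abs_le (hg v hvA)
        · simp [hg' v hvA, h.nu_sum]
      · rw [← mul_prod_erase univ (fun v => if v ∈ vsupp A then (101 / 100 : ℝ) else 1)
          (mem_univ u)]
        refine le_mul_of_one_le_left (prod_nonneg (fun v _ => by split_ifs <;> norm_num)) ?_
        rw [if_pos hu]; norm_num
  have hsum : ∑ t, |cf t| ≤ P * (δ ^ (A \ cycEdges (n + 1) c).card * cycVal K ν (n + 1)) := by
    set p : α → ℝ := fun t => if 0 ≤ cf t then 1 else -1
    have e : ∑ t, |cf t| = wsum K hK ν (Function.update g u p) A := by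
      rw [wsum_update_sum]
      refine sum_congr rfl (fun t _ => ?_)
      simp only [p, cf]
      split_ifs with ht
      · rw [one_mul, abs_of_nonneg ht]
      · rw [neg_one_mul, abs_of_neg (lt_of_not_ge ht)]
    rw [e]
    refine (le_abs_self _).trans ((abs_wsum_cycle_le h.nu_nonneg h.nu_sum h.ker_bound
      h.delta_pos.le hc hn hind _ (fun v => if v ∈ vsupp A then (101 / 100 : ℝ) else 1)
      ?_ ?_).trans ?_)
    · intro v s
      by_cases hvu : v = u
      · subst hvu
        simp only [Function.update_self, p, if_pos hu]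
        split_ifs <;> norm_num
      · rw [Function.update_of_ne hvu]
        split_ifs with hvA
        · exact hg v hvA s
        · simp [hg' v hvA]
    · intro v; split_ifs <;> norm_num
    · rw [hG, mul_assoc]
  rw [wsum_update_sum]
  refine (abs_sum_le_sum_abs _ _).trans ?_
  have hpt : ∀ t, |(f u t - 1) * cf t| ≤
      η * |cf t| + 1 / (4 * η) * (f u t - 1) ^ 2 * |cf t| := by
    intro t
    rw [abs_mul, ← add_mul]
    refine mul_le_mul_of_nonneg_right ?_ (abs_nonneg _)
    rw [← sq_abs (f u t - 1)]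
    have : η + 1 / (4 * η) * |f u t - 1| ^ 2 - |f u t - 1| =
        (|f u t - 1| - 2 * η) ^ 2 / (4 * η) := by field_simp; ring
    have : 0 ≤ (|f u t - 1| - 2 * η) ^ 2 / (4 * η) := by positivity
    linarith
  refine (sum_le_sum (fun t _ => hpt t)).trans ?_
  rw [sum_add_distrib, ← mul_sum, mul_add P]
  refine add_le_add ((mul_le_mul_of_nonneg_left hsum hη.le).trans (le_of_eq (by ring))) ?_
  rw [dev, mul_sum, mul_sum, mul_sum]
  refine sum_le_sum (fun t _ => ?_)
  refine (mul_le_mul_of_nonneg_left (htriv t) (by positivity)).trans (le_of_eq ?_)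
  ring

theorem clip_bound (h : Setting K ν E δ f col Δ) (S : Finset V) (v : V) (s : α) :
    |clip f S v s| ≤ 101 / 100 := by
  unfold clip
  split_ifs
  · exact h.f_bound v s
  · norm_num

/-- Replacing the vertex weights by one, vertex by vertex. -/
theorem Setting.telescope (h : Setting K ν E δ f col Δ) {A : Finset (Sym2 V)} {n : ℕ}
    {c : ℕ → V} (hc : IsCyc A (n + 1) c) (hn : Even (n + 1))
    (hind : ∀ e ∈ A, e ∉ cycEdges (n + 1) c → ∀ a b, a < n + 1 → b < n + 1 → e ≠ s(c a, c b))
    {η : ℝ} (hη : 0 < η) :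
    ∀ S ⊆ vsupp A, |wsum K hK ν (clip f S) A - wsum K hK ν (fun _ _ => 1) A| ≤
      ∑ u ∈ S, (101 / 100 : ℝ) ^ (vsupp A).card *
        (η * (δ ^ (A \ cycEdges (n + 1) c).card * cycVal K ν (n + 1)) +
          1 / (4 * η) * (δ ^ A.card * dev ν (f u))) := by
  intro S
  induction S using Finset.induction_on with
  | empty =>
    intro _
    have : clip f (∅ : Finset V) = fun _ _ => 1 := by funext v; simp [clip]
    simp [this]
  | @insert u S hu ih =>
    intro hS
    obtain ⟨hu', hS'⟩ := insert_subset_iff.1 hS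
    rw [sum_insert hu]
    have hne : clip f S = Function.update (clip f S) u (fun _ => 1) := by
      rw [eq_comm, Function.update_eq_self_iff]
      simp [clip, hu]
    have he : clip f (insert u S) =
        Function.update (clip f S) u ((fun s => f u s - 1) + fun _ => 1) := by
      funext v
      by_cases hv : v = u
      · subst hv
        funext s
        simp [clip]
      · rw [Function.update_of_ne hv]
        simp [clip, hv]
    rw [he, wsum_update_add, ← hne, add_sub_assoc]
    refine (abs_add_le _ _).trans (add_le_add ?_ (ih hS'))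
    refine h.centred_term hc hn hind _ (fun v _ s => clip_bound h S v s) ?_ hu' hη
    intro v hv
    simp only [clip, if_neg (fun hvS => hv (hS' hvS))]

theorem Setting.wsum_clip (h : Setting K ν E δ f col Δ) (A : Finset (Sym2 V)) :
    wsum K hK ν f A = wsum K hK ν (clip f (vsupp A)) A := by
  refine wsum_congr (subset_refl _) (fun v hv => by simp [clip, hv]) (fun v hv => ?_)
  rw [h.f_mean v]
  simp [clip, hv, h.nu_sum]

/-- The acyclic case: two leaves. -/
theorem Setting.tree_term (h : Setting K ν E δ f col Δ) {A : Finset (Sym2 V)} (hA : A ⊆ E)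
    (hne : A.Nonempty) (hcyc : ¬ HasCyc A) :
    |wsum K hK ν f A| ≤ δ ^ A.card * (101 / 100 : ℝ) ^ (vsupp A).card *
      ((∑ u ∈ vsupp A, dev ν (f u)) / 2) := by
  have hloop : ∀ e ∈ A, ¬ e.IsDiag := fun e he => h.loopless e (hA he)
  obtain ⟨u, w, huw, hu, hw⟩ := exists_two_leaves hne hloop hcyc
  have hmem : ∀ z, edeg A z = 1 → z ∈ vsupp A := by
    intro z hz
    obtain ⟨e, he⟩ := card_eq_one.1 hz
    obtain ⟨h1, h2⟩ := mem_filter.1 (he ▸ mem_singleton_self e)
    exact mem_vsupp.2 ⟨e, h1, h2⟩
  have step : ∀ (g : V → α → ℝ) (z : V), edeg A z = 1 → g z = f z →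
      wsum K hK ν g A = wsum K hK ν (Function.update g z (fun s => f z s - 1)) A := by
    intro g z hz hgz
    have e : g = Function.update g z ((fun s => f z s - 1) + fun _ => 1) := by
      rw [eq_comm, Function.update_eq_self_iff, hgz]
      funext s; simp
    conv_lhs => rw [e, wsum_update_add]
    rw [wsum_leaf (g := Function.update g z (fun _ => 1)) h.regular hloop hz (by simp), add_zero]
  set g := clip f (vsupp A)
  rw [h.wsum_clip, step g u hu (by simp [g, clip, hmem u hu]),
    step _ w hw (by rw [Function.update_of_ne (Ne.symm huw)]; simp [g, clip, hmem w hw])]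
  refine (abs_wsum_le h.nu_nonneg h.ker_bound _ A).trans ?_
  rw [mul_assoc]
  refine mul_le_mul_of_nonneg_left ?_ (pow_nonneg h.delta_pos.le _)
  set g'' := Function.update (Function.update g u (fun s => f u s - 1)) w (fun s => f w s - 1)
  rw [← mul_prod_erase univ _ (mem_univ u),
    ← mul_prod_erase (univ.erase u) _ (mem_erase.2 ⟨Ne.symm huw, mem_univ w⟩), ← mul_assoc,
    mul_comm ((101 / 100 : ℝ) ^ (vsupp A).card)]
  have e1 : g'' u = fun s => f u s - 1 := by simp [g'', Function.update_of_ne huw]
  have e2 : g'' w = fun s => f w s - 1 := by simp [g'']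
  have hcs : ∀ z, (∑ s, ν s * |f z s - 1|) ^ 2 ≤ dev ν (f z) := by
    intro z
    have := sum_sq_le_sum_mul_sum_of_sq_le_mul (f := ν) (g := fun s => ν s * (f z s - 1) ^ 2)
      (r := fun s => ν s * |f z s - 1|) univ (fun s _ => h.nu_nonneg s)
      (fun s _ => mul_nonneg (h.nu_nonneg s) (sq_nonneg _))
      (fun s _ => le_of_eq (by rw [mul_pow, sq_abs]; ring))
    rwa [h.nu_sum, one_mul] at this
  refine mul_le_mul ?_ ?_ (prod_nonneg (fun v _ => sum_nonneg (fun s _ =>
    mul_nonneg (h.nu_nonneg s) (abs_nonneg _))))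
    (div_nonneg (sum_nonneg (fun v _ => h.dev_nonneg v)) (by norm_num))
  · rw [e1, e2]
    have h1 : dev ν (f u) + dev ν (f w) ≤ ∑ z ∈ vsupp A, dev ν (f z) := by
      rw [← sum_pair (f := fun z => dev ν (f z)) huw]
      refine sum_le_sum_of_subset_of_nonneg ?_ (fun v _ _ => h.dev_nonneg v)
      intro z hz
      simp only [mem_insert, mem_singleton] at hz
      rcases hz with rfl | rfl <;> exact hmem _ ‹_›
    nlinarith [hcs u, hcs w, sq_nonneg ((∑ s, ν s * |f u s - 1|) - ∑ s, ν s * |f w s - 1|)]
  · set G := fun v => if v ∈ vsupp A then (101 / 100 : ℝ) else 1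
    have hG0 : ∀ v, 0 ≤ G v := fun v => by simp only [G]; split_ifs <;> norm_num
    have hG1 : ∀ v, 1 ≤ G v := fun v => by simp only [G]; split_ifs <;> norm_num
    have hG : ∏ v, G v = (101 / 100 : ℝ) ^ (vsupp A).card := by
      simp only [G]; rw [prod_ite]; simp [div_pow]
    rw [← hG]
    refine (prod_le_prod (g := G) (fun v _ => sum_nonneg (fun s _ =>
      mul_nonneg (h.nu_nonneg s) (abs_nonneg _))) (fun v hv => ?_)).trans ?_
    · obtain ⟨hvw, hv⟩ := mem_erase.1 hv
      simp only [g'', G, Function.update_of_ne hvw, Function.update_of_ne (mem_erase.1 hv).1]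
      split_ifs with hvA
      · exact h.avg_abs_le (clip_bound h _ v)
      · simp [g, clip, hvA, h.nu_sum]
    · exact prod_le_prod_of_subset_of_one_le (subset_univ _) (fun v _ => hG0 v) (fun v _ _ => hG1 v)

/-- The cyclic case. -/
theorem Setting.cyclic_term (h : Setting K ν E δ f col Δ) {A : Finset (Sym2 V)} (hA : A ⊆ E)
    (hconn : Conn A) {k : ℕ} {c : ℕ → V} (hs : Shortest A k c) :
    (if A = cycEdges k c then cycVal K ν k else 0) -
      ((if k ≤ 2 * (A \ cycEdges k c).card then
          δ ^ (A \ cycEdges k c).card * cycVal K ν k else 0) +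
        (101 / 100 : ℝ) ^ (vsupp A).card *
          ((vsupp A).card * (1 / 6) ^ k * (δ ^ (A \ cycEdges k c).card * cycVal K ν k) +
            6 ^ k / 4 * (δ ^ A.card * ∑ u ∈ vsupp A, dev ν (f u)))) ≤
      wsum K hK ν f A := by
  have hloop : ∀ e ∈ A, ¬ e.IsDiag := fun e he => h.loopless e (hA he)
  have hk := hs.cyc.1
  have heven : Even k := hs.cyc.even_of_coloring col (fun a b he => h.proper a b (hA he))
  obtain ⟨n, rfl⟩ : ∃ n, k = n + 1 := ⟨k - 1, by omega⟩
  have hind : ∀ e ∈ A, e ∉ cycEdges (n + 1) c → ∀ a b, a < n + 1 → b < n + 1 → e ≠ s(c a, c b) :=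
    fun e he hne a b ha hb => hs.induced hloop he hne ha hb
  have htel := h.telescope (hK := hK) hs.cyc heven hind
    (η := (1 / 6) ^ (n + 1)) (by positivity) (vsupp A) (subset_refl _)
  rw [← h.wsum_clip, sum_congr rfl (fun u _ => mul_add _ _ _), sum_add_distrib, sum_const,
    nsmul_eq_mul] at htel
  simp only [← mul_sum] at htel
  have he : 1 / (4 * (1 / 6 : ℝ) ^ (n + 1)) = 6 ^ (n + 1) / 4 := by
    rw [one_div_pow, mul_one_div, one_div_div]
  rw [he] at htel
  have ht : 0 ≤ cycVal K ν (n + 1) := cycVal_nonneg h.nu_nonneg h.ker_symm heven (by omega)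
  have h0 : (if A = cycEdges (n + 1) c then cycVal K ν (n + 1) else 0) -
      (if n + 1 ≤ 2 * (A \ cycEdges (n + 1) c).card then
        δ ^ (A \ cycEdges (n + 1) c).card * cycVal K ν (n + 1) else 0) ≤
      wsum K hK ν (fun _ _ => 1) A := by
    by_cases heq : A = cycEdges (n + 1) c
    · rw [if_pos heq, wsum_cycle h.nu_sum hs.cyc heq]
      have : 0 ≤ (if n + 1 ≤ 2 * (A \ cycEdges (n + 1) c).card then
          δ ^ (A \ cycEdges (n + 1) c).card * cycVal K ν (n + 1) else 0) := by
        split_ifs
        · exact mul_nonneg (pow_nonneg h.delta_pos.le _) ht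
        · exact le_rfl
      linarith
    · rw [if_neg heq]
      by_cases hleaf : ∀ v, edeg A v ≠ 1
      · rw [if_pos (hs.two_mul_rest hconn hloop heq hleaf)]
        have := abs_wsum_cycle_le (hK := hK) h.nu_nonneg h.nu_sum h.ker_bound h.delta_pos.le
          hs.cyc heven hind (fun _ _ => 1) (fun _ => 1) (by simp) (by simp)
        rw [prod_const_one, one_mul] at this
        linarith [(abs_le.1 this).1]
      · simp only [not_forall, not_not] at hleaf
        obtain ⟨v, hv⟩ := hleaf
        rw [wsum_leaf h.regular hloop hv rfl]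
        have : 0 ≤ (if n + 1 ≤ 2 * (A \ cycEdges (n + 1) c).card then
            δ ^ (A \ cycEdges (n + 1) c).card * cycVal K ν (n + 1) else 0) := by
          split_ifs
          · exact mul_nonneg (pow_nonneg h.delta_pos.le _) ht
          · exact le_rfl
        linarith
  have := (abs_le.1 htel).1
  linarith

theorem Setting.small_q (h : Setting K ν E δ f col Δ) {a : ℝ} (ha0 : 0 ≤ a) (ha : a ≤ 81) :
    3 * (Δ : ℝ) * (a * δ) ≤ 1 := by
  have := h.small
  have : 0 ≤ (Δ : ℝ) * δ := mul_nonneg (Nat.cast_nonneg _) h.delta_pos.le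
  nlinarith

/-- The chosen shortest cycle of a set of edges, as an edge set. -/
def cof (A : Finset (Sym2 V)) : Finset (Sym2 V) :=
  if h : HasCyc A then
    cycEdges (exists_shortest h).choose (exists_shortest h).choose_spec.choose
  else ∅

theorem cof_spec {A : Finset (Sym2 V)} (h : HasCyc A) :
    ∃ c, Shortest A (cof A).card c ∧ cof A = cycEdges (cof A).card c := by
  set k := (exists_shortest h).choose
  set c := (exists_shortest h).choose_spec.choose
  have hs : Shortest A k c := (exists_shortest h).choose_spec.choose_spec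
  have hc : cof A = cycEdges k c := by simp only [cof, dif_pos h]; rfl
  have hk : (cof A).card = k := by rw [hc, hs.cyc.card_edges]
  exact ⟨c, hk ▸ hs, by rw [hk]; exact hc⟩

theorem fibre_bound (h : Setting K ν E δ f col Δ) {C : Finset (Sym2 V)} (hC : C ⊆ E)
    (hcyc : HasCyc C) :
    ∑ G ∈ (E.powerset.filter (fun G => Conn G ∧ HasCyc G)).filter (fun G => cof G = C),
      ((if C.card ≤ 2 * (G \ C).card then
          2 * (5 / 4 : ℝ) ^ (C.card + 2 * (G \ C).card) * δ ^ (G \ C).card else 0) +
        2 * (1 / 6) ^ C.card * (9469 / 5000 : ℝ) ^ (C.card + 2 * (G \ C).card) *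
          δ ^ (G \ C).card)
      ≤ (4 / 5 : ℝ) ^ (C.card + 1) ∨ cof C ≠ C := by
  by_cases hcc : cof C = C
  swap
  · exact .inr hcc
  left
  obtain ⟨c, hsC, hCe⟩ := cof_spec hcyc
  rw [hcc] at hsC hCe
  set k := C.card
  have hk3 := hsC.cyc.1
  have heven : Even k := hsC.cyc.even_of_coloring col (fun a b he => h.proper a b (hC he))
  obtain ⟨m, hm⟩ := heven
  set R := vsupp C
  have hRk : (R.card : ℝ) ≤ k := by
    have : R ⊆ (range k).image c := by
      intro v hv
      obtain ⟨e, he, hve⟩ := mem_vsupp.1 hv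
      rw [hCe] at he
      obtain ⟨i, hi, rfl⟩ := cyc_mem_endpoint he hve
      exact mem_image.2 ⟨i, mem_range.2 hi, rfl⟩
    exact_mod_cast (card_le_card this).trans (card_image_le.trans (card_range k).le)
  set Fb := (E.powerset.filter (fun G => Conn G ∧ HasCyc G)).filter (fun G => cof G = C)
  have hmaps : ∀ G ∈ Fb, G \ C ∈ E.powerset.filter (Covered R) := by
    intro G hG
    simp only [Fb, mem_filter, mem_powerset] at hG
    obtain ⟨⟨hGE, hGc, hGh⟩, hGC⟩ := hG
    refine mem_filter.2 ⟨mem_powerset.2 (sdiff_subset.trans hGE), ?_⟩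
    obtain ⟨c', hs', he'⟩ := cof_spec hGh
    rw [hGC] at hs' he'
    have hcov := hGc.rest_covered hs'.cyc
    rw [← he'] at hcov
    intro e he
    obtain ⟨v, hv, hr⟩ := hcov e he
    refine ⟨v, hv, ?_⟩
    have hsub : (range C.card).image c' ⊆ R := by
      intro x hx
      obtain ⟨i, hi, rfl⟩ := mem_image.1 hx
      refine mem_vsupp.2 ⟨s(c' i, c' ((i + 1) % C.card)), ?_, Sym2.mem_mk_left _ _⟩
      have hm : s(c' i, c' ((i + 1) % C.card)) ∈ cycEdges C.card c' := mem_image.2 ⟨i, hi, rfl⟩
      rwa [← he'] at hm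
    clear hv
    induction hr with
    | base hx => exact .base (hsub hx)
    | step _ hxe ih => exact .step ih hxe
  have hinj : Set.InjOn (fun G => G \ C) (Fb : Set (Finset (Sym2 V))) := by
    intro G hG G' hG' heq
    simp only [Fb, coe_filter, Set.mem_setOf_eq, mem_filter, mem_powerset] at hG hG'
    have hsub : ∀ H : Finset (Sym2 V), HasCyc H → cof H = C → C ⊆ H := by
      intro H hH hHC
      obtain ⟨c', hs', he'⟩ := cof_spec hH
      rw [← hHC, he']
      exact hs'.cyc.subset
    simp only at heq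
    rw [← union_sdiff_of_subset (hsub G hG.1.2.2 hG.2),
      ← union_sdiff_of_subset (hsub G' hG'.1.2.2 hG'.2), heq]
  set F1 := fun X : Finset (Sym2 V) => (if k ≤ 2 * X.card then
        2 * (5 / 4 : ℝ) ^ (k + 2 * X.card) * δ ^ X.card else 0) +
      2 * (1 / 6) ^ k * (9469 / 5000 : ℝ) ^ (k + 2 * X.card) * δ ^ X.card
  have hF1 : ∀ X, 0 ≤ F1 X := by
    intro X
    have := h.delta_pos
    simp only [F1]
    split_ifs <;> positivity
  have hpoint : ∀ X, F1 X ≤ 2 * (5 / 16 : ℝ) ^ k * (25 * δ) ^ X.card +
      2 * (9469 / 30000 : ℝ) ^ k * ((9469 / 5000 : ℝ) ^ 2 * δ) ^ X.card := by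
    intro X
    have hd := h.delta_pos
    simp only [F1]
    refine add_le_add ?_ (le_of_eq ?_)
    · split_ifs with hX
      · have e : (5 / 4 : ℝ) ^ (k + 2 * X.card) * δ ^ X.card =
            (5 / 4) ^ k * (1 / 16) ^ X.card * (25 * δ) ^ X.card := by
          rw [pow_add, pow_mul, mul_pow (25 : ℝ),
            show (5 / 4 : ℝ) ^ 2 = (1 / 16) * 25 by norm_num, mul_pow]
          ring
        have e2 : (1 / 16 : ℝ) ^ X.card ≤ (1 / 4) ^ k := by
          rw [show (1 / 4 : ℝ) ^ k = (1 / 16) ^ m by
            rw [hm, ← two_mul, pow_mul]; norm_num]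
          exact pow_le_pow_of_le_one (by norm_num) (by norm_num) (by omega)
        calc 2 * (5 / 4 : ℝ) ^ (k + 2 * X.card) * δ ^ X.card
            = 2 * ((5 / 4) ^ k * (1 / 16) ^ X.card * (25 * δ) ^ X.card) := by rw [mul_assoc, e]
          _ ≤ 2 * ((5 / 4) ^ k * (1 / 4) ^ k * (25 * δ) ^ X.card) := by
              gcongr
          _ = _ := by rw [← mul_pow, mul_assoc]; norm_num
      · positivity
    · rw [pow_add, pow_mul, show (9469 / 30000 : ℝ) = 1 / 6 * (9469 / 5000) by norm_num, mul_pow,
        mul_pow]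
      ring
  calc _ = ∑ X ∈ Fb.image (fun G => G \ C), F1 X := by rw [sum_image hinj]
    _ ≤ ∑ X ∈ E.powerset.filter (Covered R), F1 X :=
        sum_le_sum_of_subset_of_nonneg (image_subset_iff.2 hmaps) (fun X _ _ => hF1 X)
    _ ≤ ∑ X ∈ E.powerset.filter (Covered R), (2 * (5 / 16 : ℝ) ^ k * (25 * δ) ^ X.card +
          2 * (9469 / 30000 : ℝ) ^ k * ((9469 / 5000 : ℝ) ^ 2 * δ) ^ X.card) :=
        sum_le_sum (fun X _ => hpoint X)
    _ ≤ 2 * (5 / 16 : ℝ) ^ k * (3 / 2) ^ k + 2 * (9469 / 30000 : ℝ) ^ k * (11 / 10) ^ k := by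
        rw [sum_add_distrib, ← mul_sum, ← mul_sum]
        have hd := h.delta_pos
        have key : ∀ a b : ℝ, 0 ≤ a → a ≤ 81 → 0 < b → 3 * a / 245 ≤ 1 - 1 / b →
            ∑ X ∈ E.powerset.filter (Covered R), (a * δ) ^ X.card ≤ b ^ k := by
          intro a b ha ha' hb hab
          refine (sum_covered_le (mul_nonneg ha hd.le) (h.small_q ha ha') E R h.degree).trans ?_
          have hx : 3 * (Δ : ℝ) * (a * δ) ≤ 3 * a / 245 := by
            have := h.small
            nlinarith
          calc Real.exp (3 * Δ * (a * δ) * R.card) ≤ Real.exp (k * (3 * a / 245)) := by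
                refine Real.exp_le_exp.2 ?_
                rw [mul_comm (k : ℝ)]
                exact mul_le_mul hx hRk (Nat.cast_nonneg _) (by positivity)
            _ = Real.exp (3 * a / 245) ^ k := Real.exp_nat_mul _ _
            _ ≤ b ^ k := by
                refine pow_le_pow_left₀ (Real.exp_pos _).le ?_ _
                have h1 := Real.one_sub_le_exp_neg (3 * a / 245)
                rw [Real.exp_neg] at h1
                have h2 : 0 < Real.exp (3 * a / 245) := Real.exp_pos _
                have h3 : 1 / b ≤ (Real.exp (3 * a / 245))⁻¹ := by linarith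
                rw [one_div] at h3
                exact (inv_le_inv₀ hb h2).1 h3
        refine add_le_add ?_ ?_
        · exact mul_le_mul_of_nonneg_left (key 25 (3 / 2) (by norm_num) (by norm_num)
            (by norm_num) (by norm_num)) (by positivity)
        · exact mul_le_mul_of_nonneg_left (key ((9469 / 5000 : ℝ) ^ 2) (11 / 10) (by norm_num)
            (by norm_num) (by norm_num) (by norm_num)) (by positivity)
    _ ≤ (4 / 5 : ℝ) ^ (k + 1) := by
        have hk4 : 4 ≤ k := by omega
        rw [mul_assoc, mul_assoc, ← mul_pow, ← mul_pow, pow_succ]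
        have e : ∀ b : ℝ, 0 ≤ b → b ≤ 4 / 5 →
            b ^ k ≤ (b / (4 / 5)) ^ 4 * (4 / 5 : ℝ) ^ k := by
          intro b hb hb'
          have : b ^ k = (b / (4 / 5)) ^ k * (4 / 5 : ℝ) ^ k := by
            rw [← mul_pow]; norm_num
          rw [this]
          exact mul_le_mul_of_nonneg_right (pow_le_pow_of_le_one (by positivity)
            ((div_le_one (by norm_num)).2 hb') hk4) (by positivity)
        have h1 := e (5 / 16 * (3 / 2)) (by norm_num) (by norm_num)
        have h2 := e (9469 / 30000 * (11 / 10)) (by norm_num) (by norm_num)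
        have hp : 0 < (4 / 5 : ℝ) ^ k := by positivity
        nlinarith

/-- The core estimate: the cluster sum is at least `exp (- gain)`. -/
theorem core_bound (h : Setting K ν E δ f col Δ) (gain : V → ℝ) (hg0 : ∀ v, 0 ≤ gain v)
    (hg : ∀ v ∈ vsupp E, 1 / 4 * dev ν (f v) ≤ gain v) :
    Real.exp (-∑ v, gain v) ≤ ∑ A ∈ E.powerset, wsum K h.ker_symm ν f A := by
  set hK := h.ker_symm
  have hd := h.delta_pos
  have h0 : wsum K hK ν f ∅ = 1 := by rw [wsum_empty, prod_eq_one (fun v _ => h.f_mean v)]
  have hmul : ∀ A B, Disjoint (vsupp A) (vsupp B) →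
      wsum K hK ν f (A ∪ B) = wsum K hK ν f A * wsum K hK ν f B :=
    fun A B hd => wsum_union h.f_mean hd
  have habs : ∀ A : Finset (Sym2 V),
      |wsum K hK ν f A| ≤ δ ^ A.card * (101 / 100 : ℝ) ^ (vsupp A).card := by
    intro A
    rw [h.wsum_clip]
    refine (abs_wsum_le h.nu_nonneg h.ker_bound _ A).trans
      (mul_le_mul_of_nonneg_left ?_ (pow_nonneg hd.le _))
    refine (prod_le_prod (g := fun v => if v ∈ vsupp A then (101 / 100 : ℝ) else 1)
      (fun v _ => sum_nonneg (fun s _ => mul_nonneg (h.nu_nonneg s) (abs_nonneg _)))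
      (fun v _ => ?_)).trans (le_of_eq ?_)
    · split_ifs with hv
      · exact h.avg_abs_le (clip_bound h _ v)
      · simp [clip, hv, h.nu_sum]
    · rw [prod_ite]; simp [div_pow]
  have hsmall : ∀ u, ∑ G ∈ E.powerset.filter (fun G => G.Nonempty ∧ Covered {u} G),
      |wsum K hK ν f G| * ((5 / 4 : ℝ) ^ 3) ^ (vsupp G).card ≤ 1 / 10 := by
    intro u
    refine le_trans ?_ ((sum_covered_nonempty_le (mul_nonneg (by norm_num) hd.le)
      (h.small_q (a := (101 / 100 * (5 / 4) ^ 3) ^ 2) (by norm_num) (by norm_num))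
      E u h.degree).trans ?_)
    · refine sum_le_sum (fun G _ => ?_)
      refine (mul_le_mul_of_nonneg_right (habs G) (by positivity)).trans ?_
      rw [mul_assoc, ← mul_pow, mul_pow ((101 / 100 * (5 / 4 : ℝ) ^ 3) ^ 2), ← pow_mul,
        mul_comm (((101 / 100 * (5 / 4 : ℝ) ^ 3)) ^ (2 * G.card))]
      exact mul_le_mul_of_nonneg_left
        (pow_le_pow_right₀ (a := (101 / 100 * (5 / 4) ^ 3 : ℝ)) (by norm_num) (vsupp_card_le G))
        (pow_nonneg hd.le _)
    · have := h.small
      nlinarith
  refine le_trans (Real.exp_le_exp.2 ?_) (polymer_bound h0 hmul hsmall)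
  set conn := E.powerset.filter Conn
  set t := cycVal K ν
  set main := fun G : Finset (Sym2 V) =>
    if HasCyc G ∧ cof G = G then (4 / 5 : ℝ) ^ (G.card + 1) * t G.card else 0
  set err := fun G : Finset (Sym2 V) =>
    if HasCyc G then ((if (cof G).card ≤ 2 * (G \ cof G).card then
        2 * (5 / 4 : ℝ) ^ ((cof G).card + 2 * (G \ cof G).card) * δ ^ (G \ cof G).card else 0) +
      2 * (1 / 6) ^ (cof G).card * (9469 / 5000 : ℝ) ^ ((cof G).card + 2 * (G \ cof G).card) *
        δ ^ (G \ cof G).card) * t (cof G).card else 0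
  set side := fun G : Finset (Sym2 V) => (48 / 5 * δ) ^ G.card * ∑ u ∈ vsupp G, dev ν (f u)
  have hcard_le : ∀ G : Finset (Sym2 V), ∀ a : ℝ, 1 ≤ a →
      a ^ (vsupp G).card ≤ (a ^ 2) ^ G.card := by
    intro G a ha
    rw [← pow_mul]
    exact pow_le_pow_right₀ ha (vsupp_card_le G)
  have hell : ∀ G ∈ conn, main G - err G - side G ≤ ell (wsum K hK ν f) G := by
    intro G hG
    obtain ⟨hGE, hGc⟩ := mem_filter.1 hG
    rw [mem_powerset] at hGE
    have hS : 0 ≤ ∑ u ∈ vsupp G, dev ν (f u) := sum_nonneg (fun v _ => h.dev_nonneg v)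
    set v := (vsupp G).card
    by_cases hc : HasCyc G
    · obtain ⟨c, hs, he⟩ := cof_spec hc
      set C := cof G
      set k := C.card
      have hk : Even k := hs.cyc.even_of_coloring col (fun a b hab => h.proper a b (hGE hab))
      have ht : 0 ≤ t k := cycVal_nonneg h.nu_nonneg hK hk (by have := hs.cyc.1; omega)
      have hterm := h.cyclic_term (hK := hK) hGE hGc hs
      rw [← he] at hterm
      set j := (G \ C).card
      have hv : v ≤ k + 2 * j := by
        have : vsupp G ⊆ (range k).image c ∪ vsupp (G \ C) := by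
          intro x hx
          obtain ⟨e, hee, hxe⟩ := mem_vsupp.1 hx
          by_cases heC : e ∈ C
          · rw [he] at heC
            obtain ⟨i, hi, rfl⟩ := cyc_mem_endpoint heC hxe
            exact mem_union_left _ (mem_image.2 ⟨i, mem_range.2 hi, rfl⟩)
          · exact mem_union_right _ (mem_vsupp.2 ⟨e, mem_sdiff.2 ⟨hee, heC⟩, hxe⟩)
        have h1 := (card_le_card this).trans (card_union_le _ _)
        have h2 := vsupp_card_le (G \ C)
        have h3 : ((range k).image c).card ≤ k := card_image_le.trans (card_range k).le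
        omega
      have hCG : C ⊆ G := he ▸ hs.cyc.subset
      have hkG : k ≤ G.card := card_le_card hCG
      have hA0 : 0 ≤ (if G = C then t k else 0) := by split_ifs <;> first | exact ht | exact le_rfl
      have hb := ell_lower (T := wsum K hK ν f) hA0 (by
        have := h.delta_pos
        refine add_nonneg ?_ (mul_nonneg (pow_nonneg (by norm_num) _) (add_nonneg
          (mul_nonneg (mul_nonneg (Nat.cast_nonneg _) (pow_nonneg (by norm_num) _))
            (mul_nonneg (pow_nonneg hd.le _) ht))
          (mul_nonneg (div_nonneg (pow_nonneg (by norm_num) _) (by norm_num))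
            (mul_nonneg (pow_nonneg hd.le _) hS))))
        split_ifs
        · exact mul_nonneg (pow_nonneg hd.le _) ht
        · exact le_rfl) hterm
      refine le_trans ?_ hb
      have e2 : (5 / 4 : ℝ) ^ v ≤ (5 / 4) ^ (k + 2 * j) := pow_le_pow_right₀ (by norm_num) hv
      have e3 : (v : ℝ) ≤ (3 / 2) ^ v := by
        clear * -
        induction v with
        | zero => norm_num
        | succ n ih =>
          rcases Nat.lt_or_ge n 2 with h2 | h2
          · interval_cases n <;> norm_num
          · rw [pow_succ]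
            have : (2 : ℝ) ≤ n := by exact_mod_cast h2
            push_cast
            nlinarith
      have e4 : (5 / 4 : ℝ) ^ v * ((101 / 100) ^ v * v) ≤ (9469 / 5000) ^ (k + 2 * j) := by
        calc (5 / 4 : ℝ) ^ v * ((101 / 100) ^ v * v)
            ≤ (5 / 4 : ℝ) ^ v * ((101 / 100) ^ v * (3 / 2) ^ v) := by gcongr
          _ = (15150 / 8000) ^ v := by rw [← mul_pow, ← mul_pow]; norm_num
          _ ≤ (9469 / 5000) ^ v := pow_le_pow_left₀ (by norm_num) (by norm_num) _
          _ ≤ _ := pow_le_pow_right₀ (by norm_num) hv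
      have e5 : (5 / 4 : ℝ) ^ v * (101 / 100) ^ v * 6 ^ k * δ ^ G.card ≤
          (48 / 5 * δ) ^ G.card := by
        rw [← mul_pow, mul_pow (48 / 5 : ℝ)]
        refine mul_le_mul_of_nonneg_right ?_ (pow_nonneg hd.le _)
        calc (5 / 4 * (101 / 100) : ℝ) ^ v * 6 ^ k
            ≤ ((5 / 4 * (101 / 100) : ℝ) ^ 2) ^ G.card * 6 ^ G.card := by
              refine mul_le_mul (hcard_le G (5 / 4 * (101 / 100)) (by norm_num))
                (pow_le_pow_right₀ (by norm_num) hkG) (by positivity) (by positivity)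
          _ ≤ _ := by
              rw [← mul_pow]
              exact pow_le_pow_left₀ (by norm_num) (by norm_num) _
      have hd0 : 0 ≤ δ ^ j := pow_nonneg hd.le _
      have hside : side G = (48 / 5 * δ) ^ G.card * ∑ u ∈ vsupp G, dev ν (f u) := rfl
      have m5 := mul_le_mul_of_nonneg_right e5 hS
      have m4 := mul_le_mul_of_nonneg_right e4
        (mul_nonneg (mul_nonneg hd0 ht) (by positivity : (0:ℝ) ≤ (1/6) ^ k))
      have m2 := mul_le_mul_of_nonneg_right e2 (mul_nonneg hd0 ht)
      have hiff : (HasCyc G ∧ C = G) ↔ G = C := ⟨fun hh => hh.2.symm, fun hh => ⟨hc, hh.symm⟩⟩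
      have hp : (0 : ℝ) ≤ (48 / 5 * δ) ^ G.card * ∑ u ∈ vsupp G, dev ν (f u) := by positivity
      have hmain : main G = if G = C then (4 / 5 : ℝ) ^ (G.card + 1) * t G.card else 0 :=
        if_congr hiff rfl rfl
      have herr' : err G = ((if k ≤ 2 * j then
          2 * (5 / 4 : ℝ) ^ (k + 2 * j) * δ ^ j else 0) +
          2 * (1 / 6) ^ k * (9469 / 5000 : ℝ) ^ (k + 2 * j) * δ ^ j) * t k := if_pos hc
      rw [hmain, herr']
      rw [hside]
      by_cases hGC : G = C
      · rw [if_pos hGC, if_pos hGC]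
        have hvk : (4 / 5 : ℝ) ^ (k + 1) ≤ (4 / 5) ^ (v + 1) := by
          refine pow_le_pow_of_le_one (by norm_num) (by norm_num) ?_
          have : vsupp G ⊆ (range k).image c := by
            intro x hx
            obtain ⟨e, hee, hxe⟩ := mem_vsupp.1 hx
            rw [hGC, he] at hee
            obtain ⟨i, hi, rfl⟩ := cyc_mem_endpoint hee hxe
            exact mem_image.2 ⟨i, mem_range.2 hi, rfl⟩
          have := (card_le_card this).trans (card_image_le.trans (card_range k).le)
          omega
        have hGk : G.card = k := by rw [hGC]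
        have m1 := mul_le_mul_of_nonneg_right hvk ht
        rw [hGk] at m5 hp ⊢
        split_ifs <;> nlinarith
      · rw [if_neg hGC, if_neg hGC]
        split_ifs <;> nlinarith
    · have hterm := h.tree_term (hK := hK) hGE hGc.1 hc
      have hB : 0 ≤ δ ^ G.card * (101 / 100 : ℝ) ^ v * ((∑ u ∈ vsupp G, dev ν (f u)) / 2) := by
        positivity
      have hb := ell_lower (T := wsum K hK ν f) (A := 0) (G := G) le_rfl hB
        (by linarith [(abs_le.1 hterm).1])
      refine le_trans ?_ hb
      simp only [main, err, hc, false_and, if_false, side, zero_sub, sub_zero, mul_zero,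
        neg_le_neg_iff]
      calc 2 * (5 / 4 : ℝ) ^ v * (δ ^ G.card * (101 / 100) ^ v *
            ((∑ u ∈ vsupp G, dev ν (f u)) / 2))
          = (5 / 4 * (101 / 100) : ℝ) ^ v * δ ^ G.card * ∑ u ∈ vsupp G, dev ν (f u) := by
            rw [mul_pow]; ring
        _ ≤ _ := by
            refine mul_le_mul_of_nonneg_right ?_ hS
            rw [mul_pow (48 / 5 : ℝ)]
            refine mul_le_mul_of_nonneg_right ((hcard_le G (5 / 4 * (101 / 100)) (by norm_num)).trans ?_)
              (pow_nonneg hd.le _)
            exact pow_le_pow_left₀ (by norm_num) (by norm_num) _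
  refine le_trans ?_ (sum_le_sum hell)
  rw [sum_sub_distrib, sum_sub_distrib]
  -- the error terms are dominated by the cycles
  have herr : ∑ G ∈ conn, err G ≤ ∑ G ∈ conn, main G := by
    have hcm : ∀ G ∈ E.powerset.filter (fun G => Conn G ∧ HasCyc G),
        cof G ∈ conn.filter (fun C => HasCyc C ∧ cof C = C) := by
      intro G hG
      obtain ⟨hGE, hGc, hc⟩ := mem_filter.1 hG
      rw [mem_powerset] at hGE
      obtain ⟨c, hs, he⟩ := cof_spec hc
      have hCG : cof G ⊆ G := by rw [he]; exact hs.cyc.subset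
      have hcyc' : IsCyc (cof G) (cof G).card c := by
        have := hs.cyc.self
        rwa [← he] at this
      have hcov : Covered {c 0} (cof G) := by
        have := cyc_covered hs.cyc
        rwa [← he] at this
      have hhc : HasCyc (cof G) := ⟨_, _, hcyc'⟩
      have hne : (cof G).Nonempty := card_pos.1 (by have := hs.cyc.1; omega)
      refine mem_filter.2 ⟨mem_filter.2 ⟨mem_powerset.2 (hCG.trans hGE),
        Conn.of_covered hcov hne⟩, hhc, ?_⟩
      obtain ⟨c', hs', he'⟩ := cof_spec hhc
      rw [he']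
      refine (Shortest.self_eq hcyc' ?_).trans he.symm
      rw [← he]
      exact hs'.cyc
    have e1 : ∑ G ∈ conn, err G =
        ∑ G ∈ E.powerset.filter (fun G => Conn G ∧ HasCyc G), err G := by
      rw [← filter_filter, sum_filter (s := conn) (p := HasCyc)]
      refine sum_congr rfl (fun G _ => ?_)
      by_cases hc : HasCyc G <;> simp [err, hc]
    have e2 : ∑ G ∈ conn, main G =
        ∑ C ∈ conn.filter (fun C => HasCyc C ∧ cof C = C), (4 / 5 : ℝ) ^ (C.card + 1) * t C.card := by
      rw [sum_filter (s := conn)]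
    rw [e1, e2, ← sum_fiberwise_of_maps_to hcm err]
    refine sum_le_sum (fun C hC => ?_)
    simp only [conn, mem_filter, mem_powerset] at hC
    obtain ⟨⟨hCE, hCc⟩, hCh, hCC⟩ := hC
    obtain ⟨c, hs, he⟩ := cof_spec hCh
    rw [hCC] at hs
    have hk : Even C.card := hs.cyc.even_of_coloring col (fun a b hab => h.proper a b (hCE hab))
    have ht : 0 ≤ t C.card := cycVal_nonneg h.nu_nonneg hK hk (by have := hs.cyc.1; omega)
    have hb := (fibre_bound h hCE hCh).resolve_right (not_not.2 hCC)
    refine le_trans (le_of_eq ?_) (mul_le_mul_of_nonneg_right hb ht)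
    rw [sum_mul]
    refine sum_congr rfl (fun G hG => ?_)
    obtain ⟨hG, hGC⟩ := mem_filter.1 hG
    simp only [err, if_pos (mem_filter.1 hG).2.2, hGC]
  have hside : ∑ G ∈ conn, side G ≤ ∑ v, gain v := by
    calc ∑ G ∈ conn, side G
        = ∑ u, (∑ G ∈ conn.filter (fun G => u ∈ vsupp G), (48 / 5 * δ) ^ G.card) *
            dev ν (f u) := by
          simp only [side, mul_sum, sum_mul, sum_filter]
          rw [sum_comm]
          refine sum_congr rfl (fun G _ => ?_)
          simp only [ite_mul, zero_mul]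
          rw [← sum_filter]
          refine sum_congr ?_ (fun _ _ => rfl)
          ext x; simp
      _ ≤ ∑ v, gain v := by
          refine sum_le_sum (fun u _ => ?_)
          by_cases hu : u ∈ vsupp E
          · refine le_trans (mul_le_mul_of_nonneg_right ?_ (h.dev_nonneg u)) (hg u hu)
            refine le_trans (sum_le_sum_of_subset_of_nonneg ?_ (fun G _ _ => by positivity))
              ((sum_covered_nonempty_le (mul_nonneg (by norm_num) hd.le)
              (h.small_q (a := 48 / 5) (by norm_num) (by norm_num)) E u h.degree).trans ?_)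
            · intro G hG
              simp only [conn, mem_filter, mem_powerset] at hG ⊢
              exact ⟨hG.1.1, hG.1.2.1, hG.1.2.2 u hG.2⟩
            · have := h.small
              nlinarith
          · rw [sum_eq_zero (fun G hG => ?_), zero_mul]
            · exact hg0 u
            · simp only [conn, mem_filter, mem_powerset] at hG
              exact absurd (vsupp_mono hG.1.1 hG.2) hu
  linarith

end

end Vale.Agent.P050
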