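import Mathlib

/-! Homomorphism density of a graph in a kernel. -/

namespace Vale.Agent.P050

open MeasureTheory

/-- `t(H,W)`: the integral over `V → Ω` (independent `μ`-distributed points) of the product of
`W` over the edges of `H`. -/
noncomputable def homDensity {V : Type*} [Fintype V] [DecidableEq V] (H : SimpleGraph V)
    [DecidableRel H.Adj] {Ω : Type*} [MeasurableSpace Ω] (μ : Measure Ω) (W : Ω → Ω → ℝ)
    (hW : ∀ x y, W x y = W y x) : ℝ :=
  ∫ x : V → Ω, ∏ e ∈ H.edgeFinset,
    Sym2.lift ⟨fun u v => W (x u) (x v), fun _ _ => hW _ _⟩ e ∂Measure.pi (fun _ => μ)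

end Vale.Agent.P050
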