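import Vale.Agent.P050.Core

/-! Local Sidorenko inequality for finite weighted graphs. -/

namespace Vale.Agent.P050

open Finset
open scoped Classical

set_option linter.unusedSectionVars false

noncomputable section

variable {V : Type*} [Fintype V] {α : Type*} [Fintype α]

theorem one_add_pow_lower {a q : ℝ} (hq0 : 0 ≤ q) (hq1 : q ≤ 1) (ha : q ≤ 1 + a) (m : ℕ) :
    1 + m * a + (m * (m - 1) / 2 : ℝ) * q ^ m * a ^ 2 ≤ (1 + a) ^ m := by
  induction m with
  | zero => simp
  | succ m ih =>
    have hC : 0 ≤ (m * (m - 1) / 2 : ℝ) := by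
      rcases Nat.eq_zero_or_pos m with rfl | hm
      · simp
      · have : (1 : ℝ) ≤ m := by exact_mod_cast hm
        exact div_nonneg (mul_nonneg (Nat.cast_nonneg _) (by linarith)) (by norm_num)
    have h1 := mul_le_mul_of_nonneg_left ih (hq0.trans ha)
    have hqm : q ^ (m + 1) ≤ 1 := pow_le_one₀ hq0 hq1
    have h2 := mul_le_mul_of_nonneg_right (mul_le_mul_of_nonneg_left ha
      (mul_nonneg hC (pow_nonneg hq0 m))) (sq_nonneg a)
    have h3 := mul_le_mul_of_nonneg_left hqm (mul_nonneg (Nat.cast_nonneg m) (sq_nonneg a))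
    rw [pow_succ (1 + a)]
    push_cast
    rw [pow_succ q] at h3 ⊢
    nlinarith

theorem abs_one_add_pow_sub_one (a : ℝ) (n : ℕ) :
    |(1 + a) ^ n - 1| ≤ n * |a| * (1 + |a|) ^ n := by
  induction n with
  | zero => simp
  | succ n ih =>
    have e : (1 + a) ^ (n + 1) - 1 = ((1 + a) ^ n - 1) * (1 + a) + a := by ring
    rw [e]
    refine (abs_add_le _ _).trans ?_
    rw [abs_mul]
    have h1 : |1 + a| ≤ 1 + |a| := (abs_add_le _ _).trans (by simp)
    have h2 : (1 : ℝ) ≤ (1 + |a|) ^ (n + 1) := one_le_pow₀ (by linarith [abs_nonneg a])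
    have h3 := mul_le_mul ih h1 (abs_nonneg _) (by positivity)
    push_cast
    rw [pow_succ] at h2 ⊢
    nlinarith [abs_nonneg a]

/-- The weights of the regularised model at a vertex of degree `d`. -/
def wgt (b : α → ℝ) (d : ℕ) : α → ℝ := fun s =>
  if d = 0 then 1 / b s
  else b s ^ (d - 1) / (∑ t, b t ^ d / (Fintype.card α : ℝ))

def norml (b : α → ℝ) (d : ℕ) : ℝ :=
  if d = 0 then 1 else ∑ t, b t ^ d / (Fintype.card α : ℝ)

theorem norml_facts [Nonempty α] {b : α → ℝ} {η : ℝ} (hb : ∀ s, |b s - 1| ≤ η)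
    (hsum : ∑ s, (b s - 1) = 0) (hη : η ≤ 3 / 1000) {d : ℕ} (hd : (d : ℝ) * η ≤ 2003 / 1000000) :
    1 ≤ norml b d ∧
      (∀ s, |wgt b d s| ≤ 101 / 100) ∧
      ∑ s, b s / (Fintype.card α : ℝ) * wgt b d s = 1 ∧
      (1 ≤ d → 1 / 4 * dev (fun s => b s / (Fintype.card α : ℝ)) (wgt b d) ≤
        Real.log (norml b d)) := by
  set N : ℝ := (Fintype.card α : ℝ)
  have hN : 0 < N := by
    simp only [N]
    exact_mod_cast Fintype.card_pos
  have hη0 : 0 ≤ η := (abs_nonneg _).trans (hb (Classical.arbitrary α))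
  have hbs : ∀ s, 0 < b s := fun s => by linarith [(abs_le.1 (hb s)).1]
  have hsumb : ∑ s, b s = N := by
    rw [sum_sub_distrib] at hsum
    simpa [N, sub_eq_zero] using hsum
  by_cases hd0 : d = 0
  · subst hd0
    refine ⟨by simp [norml], fun s => ?_, ?_, fun h => absurd h (by norm_num)⟩
    · simp only [wgt, if_true]
      rw [abs_of_pos (by have := hbs s; positivity), div_le_iff₀ (hbs s)]
      linarith [(abs_le.1 (hb s)).1]
    · simp only [wgt, if_true]
      have : ∀ s, b s / N * (1 / b s) = 1 / N := fun s => by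
        have := hbs s; field_simp
      rw [sum_congr rfl (fun s _ => this s)]
      simp [N]
  obtain ⟨n, rfl⟩ : ∃ n, d = n + 1 := ⟨d - 1, by omega⟩
  set Z := ∑ t, b t ^ (n + 1) / N with hZ
  have hwgt : ∀ s, wgt b (n + 1) s = b s ^ n / Z := fun s => by simp [wgt, Z, N]
  have hnorm : norml b (n + 1) = Z := by simp [norml, Z, N]
  set A2 := ∑ s, (b s - 1) ^ 2 / N
  have hA2 : 0 ≤ A2 := sum_nonneg (fun s _ => by positivity)
  have hup : ∀ (m : ℕ), m ≤ n + 1 → ∀ s, b s ^ m ≤ 10021 / 10000 ∧
      (1 + |b s - 1|) ^ m ≤ 10021 / 10000 := by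
    intro m hm s
    have hbase : (1 + |b s - 1|) ≤ Real.exp η := by
      linarith [Real.add_one_le_exp η, hb s]
    have h1 : (1 + |b s - 1|) ^ m ≤ Real.exp (m * η) := by
      rw [Real.exp_nat_mul]
      exact pow_le_pow_left₀ (by positivity) hbase m
    have h2 : (m : ℝ) * η ≤ 2003 / 1000000 :=
      (mul_le_mul_of_nonneg_right (by exact_mod_cast hm) hη0).trans hd
    have h3 : Real.exp ((m : ℝ) * η) ≤ 10021 / 10000 := by
      refine (Real.exp_le_exp.2 h2).trans ?_
      have h := Real.one_sub_le_exp_neg (2003 / 1000000 : ℝ)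
      rw [Real.exp_neg, ← one_div, le_div_iff₀ (Real.exp_pos _)] at h
      linarith
    refine ⟨le_trans (pow_le_pow_left₀ (hbs s).le ?_ m) (h1.trans h3), h1.trans h3⟩
    linarith [le_abs_self (b s - 1)]
  have hq : (99 : ℝ) / 100 ≤ (1 - η) ^ (n + 1) := by
    have := one_add_mul_le_pow (a := -η) (by linarith) (n + 1)
    rw [← sub_eq_add_neg] at this
    linarith
  have hZlow : 1 + ((n + 1 : ℕ) * ((n + 1 : ℕ) - 1) / 2 : ℝ) * (99 / 100) * A2 ≤ Z := by
    have : ∀ s, (1 + (n + 1 : ℕ) * (b s - 1) +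
        ((n + 1 : ℕ) * ((n + 1 : ℕ) - 1) / 2 : ℝ) * (99 / 100) * (b s - 1) ^ 2) / N ≤
        b s ^ (n + 1) / N := by
      intro s
      refine div_le_div_of_nonneg_right ?_ hN.le
      have h := one_add_pow_lower (a := b s - 1) (q := 1 - η) (by linarith) (by linarith)
        (by linarith [(abs_le.1 (hb s)).1]) (n + 1)
      rw [add_sub_cancel] at h
      refine le_trans ?_ h
      have hC : (0 : ℝ) ≤ ((n + 1 : ℕ) * ((n + 1 : ℕ) - 1) / 2 : ℝ) := by
        push_cast; ring_nf; positivity
      nlinarith [mul_le_mul_of_nonneg_left hq hC, sq_nonneg (b s - 1)]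
    refine le_trans (le_of_eq ?_) (sum_le_sum (fun s _ => this s))
    simp only [add_div, sum_add_distrib, mul_div_assoc, ← mul_sum, A2]
    have h0 : ∑ s, (b s - 1) / N = 0 := by rw [← sum_div, hsum, zero_div]
    rw [h0]
    simp [N]
  have hZ1 : 1 ≤ Z := by
    refine le_trans ?_ hZlow
    have : (0 : ℝ) ≤ ((n + 1 : ℕ) * ((n + 1 : ℕ) - 1) / 2 : ℝ) * (99 / 100) * A2 := by
      push_cast; ring_nf; positivity
    linarith
  have hZpos : 0 < Z := by linarith
  have hZup : Z ≤ 10021 / 10000 := by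
    calc Z ≤ ∑ t : α, (10021 / 10000 : ℝ) / N :=
          sum_le_sum (fun t _ => div_le_div_of_nonneg_right ((hup _ le_rfl t).1) hN.le)
      _ = _ := by simp [N]; field_simp
  have hmean : ∑ s, b s / N * (b s ^ n / Z) = 1 := by
    have : ∑ s, b s / N * (b s ^ n / Z) = Z / Z := by
      conv_rhs => arg 1; rw [hZ]
      rw [sum_div]
      refine sum_congr rfl (fun s _ => ?_)
      rw [pow_succ]; ring
    rw [this, div_self hZpos.ne']
  refine ⟨hnorm ▸ hZ1, fun s => ?_, by simp only [hwgt]; exact hmean, fun _ => ?_⟩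
  · rw [hwgt, abs_of_nonneg (by have := hbs s; positivity), div_le_iff₀ hZpos]
    linarith [(hup n (Nat.le_succ n) s).1]
  have hdev : dev (fun s => b s / N) (wgt b (n + 1)) ≤ 101 / 100 * (n : ℝ) ^ 2 * A2 := by
    have h1 : dev (fun s => b s / N) (wgt b (n + 1)) ≤ ∑ s, b s / N * (b s ^ n - 1) ^ 2 := by
      have hexp : ∑ s, b s / N * (b s ^ n - 1) ^ 2 =
          ∑ s, b s / N * (b s ^ n - Z) ^ 2 + (Z - 1) ^ 2 := by
        have hbn : ∑ s, b s / N * b s ^ n = Z :=
          sum_congr rfl (fun s _ => by rw [pow_succ]; ring)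
        have hb1 : ∑ s, b s / N = 1 := by rw [← sum_div, hsumb, div_self hN.ne']
        have e : ∀ s, b s / N * (b s ^ n - 1) ^ 2 =
            b s / N * (b s ^ n - Z) ^ 2 + 2 * (Z - 1) * (b s / N * b s ^ n)
              + (1 - Z ^ 2) * (b s / N) := fun s => by ring
        rw [sum_congr rfl (fun s _ => e s), sum_add_distrib, sum_add_distrib, ← mul_sum, ← mul_sum,
          hbn, hb1]
        ring
      rw [hexp]
      refine le_trans (sum_le_sum (fun s _ => ?_)) (le_add_of_nonneg_right (sq_nonneg _))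
      have hs := hbs s
      refine mul_le_mul_of_nonneg_left ?_ (by positivity)
      rw [hwgt, show b s ^ n / Z - 1 = (b s ^ n - Z) / Z by field_simp, div_pow]
      exact div_le_self (sq_nonneg _) (one_le_pow₀ hZ1)
    refine h1.trans ?_
    simp only [A2, mul_sum]
    refine sum_le_sum (fun s _ => ?_)
    have hs := hbs s
    have h := abs_one_add_pow_sub_one (b s - 1) n
    rw [add_sub_cancel] at h
    have hu := (hup n (Nat.le_succ n) s).2
    have h' := h.trans (mul_le_mul_of_nonneg_left hu (by positivity))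
    have hsq := pow_le_pow_left₀ (abs_nonneg _) h' 2
    rw [sq_abs, mul_pow, mul_pow, sq_abs] at hsq
    have hbu : b s ≤ 1003 / 1000 := by linarith [(abs_le.1 (hb s)).2]
    calc b s / N * (b s ^ n - 1) ^ 2
        ≤ (1003 / 1000) / N * ((n : ℝ) ^ 2 * (b s - 1) ^ 2 * (10021 / 10000) ^ 2) := by
          refine mul_le_mul (div_le_div_of_nonneg_right hbu hN.le) hsq (sq_nonneg _) (by positivity)
      _ = (1003 / 1000) * (10021 / 10000) ^ 2 * ((n : ℝ) ^ 2 * ((b s - 1) ^ 2 / N)) := by ring
      _ ≤ 101 / 100 * ((n : ℝ) ^ 2 * ((b s - 1) ^ 2 / N)) := by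
          exact mul_le_mul_of_nonneg_right (by norm_num) (by positivity)
      _ = _ := by ring
  rw [hnorm]
  have hlog := Real.one_sub_inv_le_log_of_pos hZpos
  have h2 : (Z - 1) / (10021 / 10000) ≤ 1 - Z⁻¹ := by
    rw [show 1 - Z⁻¹ = (Z - 1) / Z by field_simp]
    exact div_le_div_of_nonneg_left (by linarith) hZpos hZup
  push_cast at hZlow
  have hn2 : (0 : ℝ) ≤ (n : ℝ) * A2 := by positivity
  nlinarith

theorem prod_deg (E : Finset (Sym2 V)) (hloop : ∀ e ∈ E, ¬ e.IsDiag) (g : V → ℝ) :
    ∏ e ∈ E, Sym2.lift ⟨fun u w => g u * g w, fun _ _ => mul_comm _ _⟩ e =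
      ∏ v, g v ^ edeg E v := by
  have : ∀ v, g v ^ edeg E v = ∏ e ∈ E, if v ∈ e then g v else 1 := by
    intro v; rw [edeg, ← prod_filter, prod_const]
  simp only [this]
  rw [prod_comm]
  refine prod_congr rfl (fun e he => ?_)
  induction e using Sym2.ind with
  | h a b =>
    have hab : a ≠ b := fun h => hloop _ he (by simp [h])
    simp only [Sym2.lift_mk, Sym2.mem_iff]
    rw [← prod_filter]
    have : (univ.filter (fun v => v = a ∨ v = b)) = {a, b} := by ext; simp
    rw [this, prod_pair hab]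

/-- Local Sidorenko inequality for finite weighted graphs. -/
theorem finite_local [Nonempty α] (W : α → α → ℝ) (hW : ∀ a b, W a b = W b a)
    (E : Finset (Sym2 V)) (hloop : ∀ e ∈ E, ¬ e.IsDiag) (col : V → Bool)
    (hcol : ∀ a b, s(a, b) ∈ E → col a ≠ col b) {Δ : ℕ} (hΔ : 1 ≤ Δ)
    (hdeg : ∀ v, edeg E v ≤ Δ) (hbd : ∀ a b, |W a b - 1| ≤ 1 / (1000 * (Δ : ℝ))) :
    ((∑ a, ∑ b, W a b) / (Fintype.card α : ℝ) ^ 2) ^ E.card ≤
      (∑ x : V → α, eprod W hW E x) / (Fintype.card α : ℝ) ^ Fintype.card V := by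
  set N : ℝ := (Fintype.card α : ℝ) with hNdef
  have hN : 0 < N := by
    simp only [N]
    exact_mod_cast Fintype.card_pos
  set ε : ℝ := 1 / (1000 * (Δ : ℝ)) with hε
  have hΔr : (1 : ℝ) ≤ Δ := by exact_mod_cast hΔ
  have hΔε : (Δ : ℝ) * ε = 1 / 1000 := by rw [hε]; field_simp
  have hε0 : 0 < ε := by positivity
  have hε1 : ε ≤ 1 / 1000 := by nlinarith
  set p := (∑ a, ∑ b, W a b) / N ^ 2 with hp
  have hpb : |p - 1| ≤ ε := by
    have e : p - 1 = (∑ a, ∑ b, (W a b - 1)) / N ^ 2 := by
      simp only [sum_sub_distrib, sum_const, card_univ, nsmul_eq_mul, mul_one, p]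
      rw [sub_div, show (Fintype.card α : ℝ) * (Fintype.card α : ℝ) = N ^ 2 by simp only [N]; ring,
        div_self (by positivity)]
    rw [e, abs_div, abs_of_pos (by positivity : (0:ℝ) < N ^ 2), div_le_iff₀ (by positivity)]
    refine (abs_sum_le_sum_abs _ _).trans ?_
    calc ∑ a, |∑ b, (W a b - 1)| ≤ ∑ _a : α, ∑ _b : α, ε :=
          sum_le_sum (fun a _ => (abs_sum_le_sum_abs _ _).trans (sum_le_sum (fun b _ => hbd a b)))
      _ = _ := by simp [N]; ring
  have hppos : 0 < p := by linarith [(abs_le.1 hpb).1]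
  set η : ℝ := 2003 / 1000 * ε
  set W' := fun a b => W a b / p
  have hW' : ∀ a b, W' a b = W' b a := fun a b => by simp only [W', hW a b]
  have hspread : ∀ a b c d, |W' a b - W' c d| ≤ η := by
    intro a b c d
    simp only [W', ← sub_div, abs_div, abs_of_pos hppos]
    rw [div_le_iff₀ hppos]
    have h1 := abs_le.1 (hbd a b)
    have h2 := abs_le.1 (hbd c d)
    have h3 := (abs_le.1 hpb).1
    have h4 : 2 * ε ≤ η * p := by simp only [η]; nlinarith
    rw [abs_le]
    constructor <;> linarith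
  have hmean : ∑ a, ∑ b, W' a b = N ^ 2 := by
    have hS : (∑ a, ∑ b, W a b) ≠ 0 := fun h => by simp [p, h] at hppos
    simp only [W', ← sum_div, p]
    rw [div_div_eq_mul_div, mul_comm, mul_div_assoc, div_self hS, mul_one]
  set b := fun a => (∑ c, W' a c) / N
  have hbsum : ∑ a, (b a - 1) = 0 := by
    simp only [sum_sub_distrib, b, ← sum_div, hmean]
    simp [N]
    field_simp
    ring
  have hWb : ∀ a c, |W' a c - b a| ≤ η := by
    intro a c
    have e : W' a c - b a = (∑ d, (W' a c - W' a d)) / N := by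
      simp [b, sum_sub_distrib, N]; field_simp
    rw [e, abs_div, abs_of_pos hN, div_le_iff₀ hN]
    calc |∑ d, (W' a c - W' a d)| ≤ ∑ _d : α, η :=
          (abs_sum_le_sum_abs _ _).trans (sum_le_sum (fun d _ => hspread a c a d))
      _ = _ := by simp [N]; ring
  have hb : ∀ a, |b a - 1| ≤ η := by
    intro a
    have e : b a - 1 = (∑ c, ∑ d, ∑ f, (W' a c - W' d f)) / N ^ 3 := by
      simp only [sum_sub_distrib, sum_const, card_univ, nsmul_eq_mul, hmean, ← mul_sum, b]
      simp [N]
      field_simp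
    rw [e, abs_div, abs_of_pos (by positivity : (0:ℝ) < N ^ 3), div_le_iff₀ (by positivity)]
    calc |∑ c, ∑ d, ∑ f, (W' a c - W' d f)| ≤ ∑ _c : α, ∑ _d : α, ∑ _f : α, η :=
          (abs_sum_le_sum_abs _ _).trans (sum_le_sum (fun c _ => (abs_sum_le_sum_abs _ _).trans
            (sum_le_sum (fun d _ => (abs_sum_le_sum_abs _ _).trans
              (sum_le_sum (fun f _ => hspread a c d f))))))
      _ = _ := by simp [N]; ring
  have hη0 : 0 ≤ η := by positivity
  have hη : η ≤ 3 / 1000 := by simp only [η]; linarith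
  have hbpos : ∀ a, 0 < b a := fun a => by linarith [(abs_le.1 (hb a)).1]
  set K := fun s t => W' s t / (b s * b t) - 1 with hKdef
  set δ : ℝ := 404 / 100 * ε
  have hKs : ∀ s t, K s t = K t s := fun s t => by simp only [K, hW' s t, mul_comm (b s)]
  have hKb : ∀ s t, |K s t| ≤ δ := by
    intro s t
    have hpp := mul_pos (hbpos s) (hbpos t)
    have e : K s t = ((W' s t - b s) + (1 - b t) + (-((b s - 1) * (b t - 1)))) / (b s * b t) := by
      simp only [K]
      rw [eq_div_iff hpp.ne', sub_mul, div_mul_cancel₀ _ hpp.ne']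
      ring
    rw [e, abs_div, abs_of_pos hpp, div_le_iff₀ hpp]
    have h1 := hWb s t
    have h2 : |1 - b t| ≤ η := by rw [abs_sub_comm]; exact hb t
    have h3 : |-((b s - 1) * (b t - 1))| ≤ η * η := by
      rw [abs_neg, abs_mul]; exact mul_le_mul (hb s) (hb t) (abs_nonneg _) hη0
    refine ((abs_add_le _ _).trans (add_le_add ((abs_add_le _ _).trans (add_le_add h1 h2)) h3)).trans ?_
    have hlow : (1 - η) * (1 - η) ≤ b s * b t :=
      mul_le_mul (by linarith [(abs_le.1 (hb s)).1]) (by linarith [(abs_le.1 (hb t)).1])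
        (by linarith) (hbpos s).le
    refine le_trans ?_ (mul_le_mul_of_nonneg_left hlow (by positivity))
    simp only [η, δ]
    nlinarith
  set ν := fun s => b s / N
  have hreg : ∀ s, ∑ t, ν t * K s t = 0 := by
    intro s
    have : ∀ t, ν t * K s t = (W' s t / b s - b t) / N := fun t => by
      have := hbpos s; have := hbpos t
      simp only [ν, K]; field_simp
    simp only [this, ← sum_div, sum_sub_distrib]
    have h1 : ∑ t, W' s t = N * b s := by simp only [b]; field_simp
    have h2 : ∑ t, b t = N := by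
      have := hbsum; rw [sum_sub_distrib] at this; simpa [N, sub_eq_zero] using this
    rw [h1, h2, mul_div_assoc, div_self (hbpos s).ne']
    simp
  set f := fun v => wgt b (edeg E v)
  have hfacts : ∀ v, 1 ≤ norml b (edeg E v) ∧ (∀ s, |f v s| ≤ 101 / 100) ∧
      ∑ s, b s / N * f v s = 1 ∧
      (1 ≤ edeg E v → 1 / 4 * dev ν (f v) ≤ Real.log (norml b (edeg E v))) := by
    intro v
    refine norml_facts hb hbsum hη ?_
    calc (edeg E v : ℝ) * η ≤ Δ * η :=
          mul_le_mul_of_nonneg_right (by exact_mod_cast hdeg v) hη0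
      _ = 2003 / 1000 * (Δ * ε) := by simp only [η]; ring
      _ = _ := by rw [hΔε]; norm_num
  have hset : Setting K ν E δ f col Δ :=
    { nu_nonneg := fun s => by have := hbpos s; positivity
      nu_sum := by
        simp only [ν, ← sum_div]
        have := hbsum; rw [sum_sub_distrib] at this
        rw [show ∑ s, b s = N by simpa [N, sub_eq_zero] using this, div_self hN.ne']
      ker_symm := hKs
      ker_bound := hKb
      regular := hreg
      delta_pos := by positivity
      loopless := hloop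
      proper := hcol
      degree := hdeg
      small := by
        rw [show (Δ : ℝ) * δ = 404 / 100 * (Δ * ε) by simp only [δ]; ring, hΔε]
        norm_num
      f_mean := fun v => (hfacts v).2.2.1
      f_bound := fun v => (hfacts v).2.1 }
  have hcore := core_bound hset (fun v => Real.log (norml b (edeg E v)))
    (fun v => Real.log_nonneg (hfacts v).1) (fun v hv => by
      refine (hfacts v).2.2.2 ?_
      obtain ⟨e, he, hve⟩ := mem_vsupp.1 hv
      exact card_pos.2 ⟨e, mem_filter.2 ⟨he, hve⟩⟩)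
  -- the identity
  have hw : ∀ v s, norml b (edeg E v) * (ν s * f v s) = 1 / N * b s ^ edeg E v := by
    intro v s
    by_cases hd : edeg E v = 0
    · simp only [norml, f, wgt, hd, if_true, ν, pow_zero]
      have := hbpos s
      field_simp
    · obtain ⟨n, hn⟩ : ∃ n, edeg E v = n + 1 := ⟨edeg E v - 1, by omega⟩
      have hZ : (0 : ℝ) < ∑ t, b t ^ (n + 1) / N :=
        sum_pos (fun t _ => by have := hbpos t; positivity) univ_nonempty
      simp only [norml, f, wgt, hn, Nat.succ_ne_zero, if_false, Nat.add_sub_cancel, ν]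
      generalize hgen : ∑ t, b t ^ (n + 1) / N = Z at hZ
      rw [pow_succ]
      field_simp
  have hid : (∑ x : V → α, eprod W' hW' E x) / N ^ Fintype.card V =
      (∏ v, norml b (edeg E v)) * ∑ A ∈ E.powerset, wsum K hset.ker_symm ν f A := by
    simp only [wsum, sum_div]
    rw [sum_comm, mul_sum]
    refine sum_congr rfl (fun x _ => ?_)
    rw [← mul_sum, ← mul_assoc, ← prod_mul_distrib]
    simp only [hw, prod_mul_distrib, prod_const, card_univ]
    have h1 : eprod W' hW' E x = (∏ v, b (x v) ^ edeg E v) *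
        ∑ A ∈ E.powerset, eprod K hset.ker_symm A x := by
      rw [← prod_deg E hloop (fun v => b (x v))]
      simp only [eprod]
      rw [← prod_one_add, ← prod_mul_distrib]
      refine prod_congr rfl (fun e _ => ?_)
      induction e using Sym2.ind with
      | h u w =>
        simp only [Sym2.lift_mk, K]
        have := hbpos (x u); have := hbpos (x w)
        field_simp
        ring
    rw [h1, one_div_pow]
    ring
  have hge : 1 ≤ (∑ x : V → α, eprod W' hW' E x) / N ^ Fintype.card V := by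
    rw [hid]
    have hprod : ∏ v, norml b (edeg E v) = Real.exp (∑ v, Real.log (norml b (edeg E v))) := by
      rw [Real.exp_sum]
      exact prod_congr rfl (fun v _ => (Real.exp_log (by linarith [(hfacts v).1])).symm)
    calc (1 : ℝ) = Real.exp (∑ v, Real.log (norml b (edeg E v))) *
          Real.exp (-∑ v, Real.log (norml b (edeg E v))) := by rw [← Real.exp_add]; simp
      _ ≤ _ := by
          rw [hprod]
          exact mul_le_mul_of_nonneg_left hcore (Real.exp_pos _).le
  have hscale : ∀ x : V → α, eprod W hW E x = p ^ E.card * eprod W' hW' E x := by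
    intro x
    rw [eprod, eprod, ← prod_const, ← prod_mul_distrib]
    refine prod_congr rfl (fun e _ => ?_)
    induction e using Sym2.ind with
    | h u w => simp only [Sym2.lift_mk, W']; field_simp
  simp only [hscale, ← mul_sum, mul_div_assoc]
  exact le_mul_of_one_le_right (pow_nonneg hppos.le _) hge

end

end Vale.Agent.P050
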