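import Mathlib

/-! Edge sets of a finite graph: reachability, exponential counting of reachable
edge sets, cycles. -/

namespace Vale.Agent.P050

open Finset
open scoped Classical

set_option linter.unusedSectionVars false

variable {V : Type*} [Fintype V]

noncomputable section

def vsupp (A : Finset (Sym2 V)) : Finset V := univ.filter (fun v => ∃ e ∈ A, v ∈ e)

def edeg (A : Finset (Sym2 V)) (v : V) : ℕ := (A.filter (fun e => v ∈ e)).card

theorem mem_vsupp {A : Finset (Sym2 V)} {v : V} : v ∈ vsupp A ↔ ∃ e ∈ A, v ∈ e := by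
  simp [vsupp]

theorem vsupp_mono {A B : Finset (Sym2 V)} (h : A ⊆ B) : vsupp A ⊆ vsupp B := by
  intro v hv
  obtain ⟨e, he, hve⟩ := mem_vsupp.1 hv
  exact mem_vsupp.2 ⟨e, h he, hve⟩

theorem vsupp_card_le (A : Finset (Sym2 V)) : (vsupp A).card ≤ 2 * A.card := by
  have : vsupp A ⊆ A.biUnion (fun e => univ.filter (fun v => v ∈ e)) := by
    intro v hv
    obtain ⟨e, he, hve⟩ := mem_vsupp.1 hv
    simp only [mem_biUnion, mem_filter, mem_univ, true_and]
    exact ⟨e, he, hve⟩
  refine (card_le_card this).trans ((card_biUnion_le_card_mul _ _ 2 ?_).trans (le_of_eq (by ring)))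
  intro e _
  induction e using Sym2.ind with
  | h a b =>
    calc _ ≤ ({a, b} : Finset V).card := card_le_card (by intro v hv; simpa using hv)
      _ ≤ 2 := card_le_two

inductive Reach (R : Finset V) (A : Finset (Sym2 V)) : V → Prop
  | base {v : V} : v ∈ R → Reach R A v
  | step {u v : V} : Reach R A u → s(u, v) ∈ A → Reach R A v

def Covered (R : Finset V) (A : Finset (Sym2 V)) : Prop :=
  ∀ e ∈ A, ∃ v ∈ e, Reach R A v

theorem Reach.mono {R : Finset V} {A B : Finset (Sym2 V)} (h : A ⊆ B) {v : V}
    (hv : Reach R A v) : Reach R B v := by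
  induction hv with
  | base hv => exact .base hv
  | step _ he ih => exact .step ih (h he)

theorem Reach.both {R : Finset V} {A : Finset (Sym2 V)} {e : Sym2 V} (he : e ∈ A) {v w : V}
    (hv : v ∈ e) (hr : Reach R A v) (hw : w ∈ e) : Reach R A w := by
  induction e using Sym2.ind with
  | h a b =>
    rw [Sym2.mem_iff] at hv hw
    rcases hv with rfl | rfl <;> rcases hw with rfl | rfl
    · exact hr
    · exact .step hr he
    · exact .step hr (by rw [Sym2.eq_swap]; exact he)
    · exact hr

theorem Reach.trans {R : Finset V} {A : Finset (Sym2 V)} {u v : V}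
    (h₁ : Reach R A u) (h₂ : Reach {u} A v) : Reach R A v := by
  induction h₂ with
  | base hv => rw [mem_singleton] at hv; exact hv ▸ h₁
  | step _ he ih => exact .step ih he

theorem Reach.symm {A : Finset (Sym2 V)} {u v : V} (h : Reach {u} A v) : Reach {v} A u := by
  induction h with
  | base hv => rw [mem_singleton] at hv; exact .base (by simp [hv])
  | @step a b _ he ih =>
    exact (Reach.step (.base (mem_singleton_self b)) (by rw [Sym2.eq_swap]; exact he)).trans ih

theorem Reach.mem_or {R : Finset V} {A : Finset (Sym2 V)} {v : V} (h : Reach R A v) :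
    v ∈ R ∨ v ∈ vsupp A := by
  cases h with
  | base hv => exact .inl hv
  | step _ he => exact .inr (mem_vsupp.2 ⟨_, he, Sym2.mem_mk_right _ _⟩)

/-- Connected nonempty edge sets. -/
def Conn (A : Finset (Sym2 V)) : Prop := A.Nonempty ∧ ∀ u ∈ vsupp A, Covered {u} A

theorem covered_root {A : Finset (Sym2 V)} {u : V} (h : Covered {u} A) (hne : A.Nonempty) :
    u ∈ vsupp A := by
  obtain ⟨e, he⟩ := hne
  obtain ⟨v, hv, hr⟩ := h e he
  by_cases huv : v = u
  · exact mem_vsupp.2 ⟨e, he, huv ▸ hv⟩
  · have := hr.symm.mem_or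
    rw [mem_singleton] at this
    exact this.resolve_left (fun h => huv h.symm)

theorem Conn.of_covered {A : Finset (Sym2 V)} {u : V} (h : Covered {u} A) (hne : A.Nonempty) :
    Conn A := by
  refine ⟨hne, fun w hw e he => ?_⟩
  obtain ⟨v, hv, hr⟩ := h e he
  obtain ⟨f, hf, hwf⟩ := mem_vsupp.1 hw
  obtain ⟨x, hx, hrx⟩ := h f hf
  exact ⟨v, hv, (Reach.both hf hx hrx hwf).symm.trans hr⟩

def atV (A : Finset (Sym2 V)) (r : V) : Finset (Sym2 V) := A.filter (fun e => r ∈ e)

def nbrsOf (Y : Finset (Sym2 V)) (r : V) : Finset V :=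
  Y.biUnion (fun e => univ.filter (fun v => v ∈ e ∧ v ≠ r))

theorem nbrsOf_card {Y : Finset (Sym2 V)} {r : V} (h : ∀ e ∈ Y, r ∈ e) :
    (nbrsOf Y r).card ≤ Y.card := by
  refine (card_biUnion_le_card_mul _ _ 1 ?_).trans (le_of_eq (by ring))
  intro e he
  obtain ⟨w, rfl⟩ := h e he
  rw [card_le_one]
  intro a ha b hb
  simp only [mem_filter, mem_univ, true_and, Sym2.mem_iff] at ha hb
  rcases ha with ⟨rfl | rfl, ha⟩ <;> rcases hb with ⟨rfl | rfl, hb⟩ <;>
    first | rfl | exact absurd rfl ha | exact absurd rfl hb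

theorem covered_peel {R : Finset V} {X : Finset (Sym2 V)} {r : V} (h : Covered R X) :
    Covered (R.erase r ∪ nbrsOf (atV X r) r) (X \ atV X r) := by
  have key : ∀ v, Reach R X v → v = r ∨
      Reach (R.erase r ∪ nbrsOf (atV X r) r) (X \ atV X r) v := by
    intro v hv
    induction hv with
    | @base w hw =>
      by_cases hwr : w = r
      · exact .inl hwr
      · exact .inr (.base (by simp [hw, hwr]))
    | @step u w _ he ih =>
      by_cases hwr : w = r
      · exact .inl hwr
      · refine .inr ?_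
        by_cases hre : r ∈ s(u, w)
        · exact .base (mem_union_right _ (by
            simp only [nbrsOf, mem_biUnion, mem_filter, mem_univ, true_and]
            exact ⟨s(u, w), by simp [atV, he, hre], Sym2.mem_mk_right _ _, hwr⟩))
        · rcases ih with rfl | ih
          · exact absurd (Sym2.mem_mk_left _ _) hre
          · exact .step ih (by simp [atV, he, hre])
  intro e he
  rw [mem_sdiff] at he
  obtain ⟨v, hv, hr⟩ := h e he.1
  refine ⟨v, hv, (key v hr).resolve_left ?_⟩
  rintro rfl
  exact he.2 (by simp [atV, he.1, hv])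

/-- The number of edge sets reachable from `R`, weighted by `q ^ card`. -/
theorem sum_covered_le {Δ : ℕ} {q : ℝ} (hq : 0 ≤ q) (hΔq : 3 * Δ * q ≤ 1)
    (E : Finset (Sym2 V)) (R : Finset V) (hdeg : ∀ v, edeg E v ≤ Δ) :
    ∑ X ∈ E.powerset.filter (Covered R), q ^ X.card ≤ Real.exp (3 * Δ * q * R.card) := by
  suffices H : ∀ n : ℕ, ∀ (E : Finset (Sym2 V)) (R : Finset V), 2 * E.card + R.card ≤ n →
      (∀ v, edeg E v ≤ Δ) →
      ∑ X ∈ E.powerset.filter (Covered R), q ^ X.card ≤ Real.exp (3 * Δ * q * R.card) from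
    H _ E R le_rfl hdeg
  intro n
  induction n with
  | zero =>
    intro E R hn _
    have hE : E = ∅ := card_eq_zero.1 (by omega)
    subst hE
    calc ∑ X ∈ (∅ : Finset (Sym2 V)).powerset.filter (Covered R), q ^ X.card
        ≤ ∑ X ∈ (∅ : Finset (Sym2 V)).powerset, q ^ X.card :=
          sum_le_sum_of_subset_of_nonneg (filter_subset _ _) (fun _ _ _ => pow_nonneg hq _)
      _ = 1 := by simp
      _ ≤ _ := Real.one_le_exp (by positivity)
  | succ n ih =>
    intro E R hn hdeg
    rcases R.eq_empty_or_nonempty with hR | ⟨r, hr⟩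
    · subst hR
      have : E.powerset.filter (Covered (∅ : Finset V)) = {∅} := by
        ext X
        simp only [mem_filter, mem_powerset, mem_singleton]
        refine ⟨fun h => ?_, fun h => by simp [h, Covered]⟩
        rw [eq_empty_iff_forall_notMem]
        intro e he
        obtain ⟨v, _, hv⟩ := h.2 e he
        clear * - hv
        induction hv with
        | base h => simp at h
        | step _ _ ih => exact ih
      rw [this]; simp
    · set D := atV E r
      have hDE : D ⊆ E := filter_subset _ _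
      have hmap : Set.InjOn (fun X : Finset (Sym2 V) => ((⟨atV X r, X \ atV X r⟩ :
          (_ : Finset (Sym2 V)) × Finset (Sym2 V))))
          (E.powerset.filter (Covered R) : Set (Finset (Sym2 V))) := by
        intro X _ Y _ hXY
        simp only [Sigma.mk.injEq, heq_eq_eq] at hXY
        have hX : atV X r ∪ (X \ atV X r) = X := union_sdiff_of_subset (filter_subset _ _)
        have hY : atV Y r ∪ (Y \ atV Y r) = Y := union_sdiff_of_subset (filter_subset _ _)
        rw [← hX, ← hY, hXY.2, hXY.1]
      calc ∑ X ∈ E.powerset.filter (Covered R), q ^ X.card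
          = ∑ p ∈ (E.powerset.filter (Covered R)).image
              (fun X => ((⟨atV X r, X \ atV X r⟩ : (_ : Finset (Sym2 V)) × Finset (Sym2 V)))),
              q ^ p.1.card * q ^ p.2.card := by
            rw [sum_image hmap]
            refine sum_congr rfl (fun X _ => ?_)
            show _ = q ^ (atV X r).card * q ^ (X \ atV X r).card
            rw [← pow_add]
            congr 1
            have hsub : atV X r ⊆ X := filter_subset _ _
            rw [card_sdiff_of_subset hsub]
            have := card_le_card hsub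
            omega
        _ ≤ ∑ p ∈ D.powerset.sigma (fun Y => (E \ D).powerset.filter
              (Covered (R.erase r ∪ nbrsOf Y r))), q ^ p.1.card * q ^ p.2.card := by
            refine sum_le_sum_of_subset_of_nonneg ?_
              (fun _ _ _ => mul_nonneg (pow_nonneg hq _) (pow_nonneg hq _))
            intro p hp
            simp only [mem_image, mem_filter, mem_powerset] at hp
            obtain ⟨X, ⟨hX, hc⟩, rfl⟩ := hp
            simp only [mem_sigma, mem_powerset, mem_filter]
            refine ⟨filter_subset_filter _ hX, ?_, covered_peel hc⟩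
            intro e he
            simp only [D, atV, mem_sdiff, mem_filter, not_and] at he ⊢
            exact ⟨hX he.1, fun _ => he.2 he.1⟩
        _ = ∑ Y ∈ D.powerset, q ^ Y.card * ∑ X ∈ (E \ D).powerset.filter
              (Covered (R.erase r ∪ nbrsOf Y r)), q ^ X.card := by
            rw [sum_sigma]; simp [mul_sum]
        _ ≤ ∑ Y ∈ D.powerset, q ^ Y.card *
              Real.exp (3 * Δ * q * ((R.card - 1 : ℕ) + Y.card : ℝ)) := by
            refine sum_le_sum (fun Y hY => mul_le_mul_of_nonneg_left ?_ (pow_nonneg hq _))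
            rw [mem_powerset] at hY
            have h1 : (nbrsOf Y r).card ≤ Y.card :=
              nbrsOf_card (fun e he => (mem_filter.1 (hY he)).2)
            have h2 : (R.erase r ∪ nbrsOf Y r).card ≤ R.card - 1 + Y.card := by
              refine (card_union_le _ _).trans ?_
              rw [card_erase_of_mem hr]; omega
            have h3 : (E \ D).card = E.card - D.card := card_sdiff_of_subset hDE
            have h4 : D.card ≤ E.card := card_le_card hDE
            have h5 : Y.card ≤ D.card := card_le_card hY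
            have h6 : 1 ≤ R.card := card_pos.2 ⟨r, hr⟩
            refine (ih _ _ (by omega) (fun v => ?_)).trans (Real.exp_le_exp.2 ?_)
            · exact (card_le_card (filter_subset_filter _ sdiff_subset)).trans (hdeg v)
            · exact mul_le_mul_of_nonneg_left (by exact_mod_cast h2) (by positivity)
        _ = Real.exp (3 * Δ * q * (R.card - 1 : ℕ)) *
              ∑ Y ∈ D.powerset, (q * Real.exp (3 * Δ * q)) ^ Y.card := by
            rw [mul_sum]
            refine sum_congr rfl (fun Y _ => ?_)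
            rw [mul_pow, ← Real.exp_nat_mul, mul_left_comm, ← Real.exp_add]
            ring_nf
        _ = Real.exp (3 * Δ * q * (R.card - 1 : ℕ)) * (1 + q * Real.exp (3 * Δ * q)) ^ D.card := by
            congr 1
            rw [← prod_const, prod_one_add]
            simp [prod_const]
        _ ≤ Real.exp (3 * Δ * q * (R.card - 1 : ℕ)) * Real.exp (3 * Δ * q) := by
            refine mul_le_mul_of_nonneg_left ?_ (Real.exp_pos _).le
            have he3 : Real.exp (3 * Δ * q) ≤ 3 :=
              (Real.exp_le_exp.2 hΔq).trans (by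
                have := Real.exp_one_lt_d9; linarith)
            calc (1 + q * Real.exp (3 * Δ * q)) ^ D.card
                ≤ (Real.exp (3 * q)) ^ D.card := by
                  refine pow_le_pow_left₀ (by positivity) ?_ _
                  have := Real.add_one_le_exp (3 * q)
                  nlinarith [Real.exp_pos (3 * Δ * q)]
              _ = Real.exp (D.card * (3 * q)) := (Real.exp_nat_mul _ _).symm
              _ ≤ _ := by
                  refine Real.exp_le_exp.2 ?_
                  have : (D.card : ℝ) ≤ Δ := by exact_mod_cast hdeg r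
                  nlinarith
        _ = _ := by
            rw [← Real.exp_add]
            congr 1
            have h6 : 1 ≤ R.card := card_pos.2 ⟨r, hr⟩
            push_cast [Nat.cast_sub h6]
            ring

theorem sum_covered_nonempty_le {Δ : ℕ} {q : ℝ} (hq : 0 ≤ q) (hΔq : 3 * Δ * q ≤ 1)
    (E : Finset (Sym2 V)) (u : V) (hdeg : ∀ v, edeg E v ≤ Δ) :
    ∑ X ∈ E.powerset.filter (fun X => X.Nonempty ∧ Covered {u} X), q ^ X.card
      ≤ 6 * Δ * q := by
  have h := sum_covered_le hq hΔq E {u} hdeg
  have hs : E.powerset.filter (fun X => X.Nonempty ∧ Covered {u} X) =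
      (E.powerset.filter (Covered {u})).erase ∅ := by
    ext X
    simp only [mem_filter, mem_erase, mem_powerset, nonempty_iff_ne_empty, ne_eq]
    tauto
  have hm : (∅ : Finset (Sym2 V)) ∈ E.powerset.filter (Covered {u}) := by simp [Covered]
  rw [← add_sum_erase _ _ hm, ← hs] at h
  simp only [card_empty, pow_zero, card_singleton, Nat.cast_one, mul_one] at h
  have h2 := Real.abs_exp_sub_one_le (x := 3 * Δ * q)
    (by rw [abs_of_nonneg (by positivity)]; exact hΔq)
  rw [abs_of_nonneg (by positivity : (0:ℝ) ≤ 3 * Δ * q)] at h2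
  linarith [(abs_le.1 h2).2]

/-- Component of `u`. -/
def comp (A : Finset (Sym2 V)) (u : V) : Finset (Sym2 V) :=
  A.filter (fun e => ∃ v ∈ e, Reach {u} A v)

theorem comp_subset (A : Finset (Sym2 V)) (u : V) : comp A u ⊆ A := filter_subset _ _

theorem comp_covered (A : Finset (Sym2 V)) (u : V) : Covered {u} (comp A u) := by
  have key : ∀ v, Reach {u} A v → Reach {u} (comp A u) v := by
    intro v hv
    induction hv with
    | base h => exact .base h
    | @step a b hr he ih =>
      exact .step ih (mem_filter.2 ⟨he, a, Sym2.mem_mk_left _ _, hr⟩)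
  intro e he
  obtain ⟨_, v, hv, hr⟩ := mem_filter.1 he
  exact ⟨v, hv, key v hr⟩

theorem comp_disjoint (A : Finset (Sym2 V)) (u : V) :
    Disjoint (vsupp (comp A u)) (vsupp (A \ comp A u)) ∧ u ∉ vsupp (A \ comp A u) := by
  constructor
  · rw [disjoint_left]
    intro v hv hv'
    obtain ⟨e, he, hve⟩ := mem_vsupp.1 hv
    obtain ⟨f, hf, hvf⟩ := mem_vsupp.1 hv'
    obtain ⟨heA, w, hw, hr⟩ := mem_filter.1 he
    rw [mem_sdiff] at hf
    exact hf.2 (mem_filter.2 ⟨hf.1, v, hvf, Reach.both heA hw hr hve⟩)
  · intro hv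
    obtain ⟨f, hf, hvf⟩ := mem_vsupp.1 hv
    rw [mem_sdiff] at hf
    exact hf.2 (mem_filter.2 ⟨hf.1, u, hvf, .base (mem_singleton_self u)⟩)

theorem comp_union {G B : Finset (Sym2 V)} {u : V} (hG : Covered {u} G)
    (hd : Disjoint (vsupp G) (vsupp B)) (hu : u ∉ vsupp B) : comp (G ∪ B) u = G := by
  have key : ∀ v, Reach {u} (G ∪ B) v → v ∉ vsupp B := by
    intro v hv
    induction hv with
    | base h => rw [mem_singleton] at h; exact h ▸ hu
    | @step a b _ he ih =>
      rcases mem_union.1 he with he | he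
      · exact disjoint_left.1 hd (mem_vsupp.2 ⟨_, he, Sym2.mem_mk_right _ _⟩)
      · exact absurd (mem_vsupp.2 ⟨_, he, Sym2.mem_mk_left _ _⟩) ih
  apply Subset.antisymm
  · intro e he
    obtain ⟨he, v, hv, hr⟩ := mem_filter.1 he
    exact (mem_union.1 he).resolve_right (fun h => key v hr (mem_vsupp.2 ⟨e, h, hv⟩))
  · intro e he
    obtain ⟨v, hv, hr⟩ := hG e he
    exact mem_filter.2 ⟨mem_union_left _ he, v, hv, hr.mono subset_union_left⟩

/-! ### Cycles -/

def cycEdges (k : ℕ) (c : ℕ → V) : Finset (Sym2 V) :=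
  (range k).image (fun i => s(c i, c ((i + 1) % k)))

def IsCyc (A : Finset (Sym2 V)) (k : ℕ) (c : ℕ → V) : Prop :=
  3 ≤ k ∧ Set.InjOn c (Set.Iio k) ∧ ∀ i < k, s(c i, c ((i + 1) % k)) ∈ A

def HasCyc (A : Finset (Sym2 V)) : Prop := ∃ k c, IsCyc A k c

theorem IsCyc.mono {A B : Finset (Sym2 V)} {k : ℕ} {c : ℕ → V} (h : IsCyc A k c) (hAB : A ⊆ B) :
    IsCyc B k c := ⟨h.1, h.2.1, fun i hi => hAB (h.2.2 i hi)⟩

theorem IsCyc.self {A : Finset (Sym2 V)} {k : ℕ} {c : ℕ → V} (h : IsCyc A k c) :
    IsCyc (cycEdges k c) k c :=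
  ⟨h.1, h.2.1, fun i hi => mem_image.2 ⟨i, mem_range.2 hi, rfl⟩⟩

theorem IsCyc.subset {A : Finset (Sym2 V)} {k : ℕ} {c : ℕ → V} (h : IsCyc A k c) :
    cycEdges k c ⊆ A := by
  intro e he
  obtain ⟨i, hi, rfl⟩ := mem_image.1 he
  exact h.2.2 i (mem_range.1 hi)

theorem succ_mod {i k : ℕ} (h : i < k) :
    (i + 1 < k ∧ (i + 1) % k = i + 1) ∨ (i + 1 = k ∧ (i + 1) % k = 0) := by
  rcases (Nat.succ_le_of_lt h).lt_or_eq with h' | h'
  · exact .inl ⟨h', Nat.mod_eq_of_lt h'⟩
  · refine .inr ⟨h', ?_⟩
    show (i + 1) % k = 0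
    rw [show i + 1 = k from h', Nat.mod_self]

theorem IsCyc.edge_inj {A : Finset (Sym2 V)} {k : ℕ} {c : ℕ → V} (h : IsCyc A k c) :
    Set.InjOn (fun i => s(c i, c ((i + 1) % k))) (range k : Set ℕ) := by
  have hk := h.1
  intro i hi j hj hij
  simp only [coe_range, Set.mem_Iio] at hi hj
  have hmi : (i + 1) % k < k := Nat.mod_lt _ (by omega)
  have hmj : (j + 1) % k < k := Nat.mod_lt _ (by omega)
  rw [Sym2.eq_iff] at hij
  rcases hij with ⟨h1, _⟩ | ⟨h1, h2⟩
  · exact h.2.1 hi hj h1
  · have e1 : i = (j + 1) % k := h.2.1 hi hmj h1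
    have e2 : (i + 1) % k = j := h.2.1 hmi hj h2
    rcases succ_mod hi with ⟨_, hh⟩ | ⟨_, hh⟩ <;>
      rcases succ_mod hj with ⟨_, hh'⟩ | ⟨_, hh'⟩ <;> omega

theorem IsCyc.card_edges {A : Finset (Sym2 V)} {k : ℕ} {c : ℕ → V} (h : IsCyc A k c) :
    (cycEdges k c).card = k := by
  rw [cycEdges, card_image_of_injOn h.edge_inj, card_range]

theorem cyc_mem_endpoint {k : ℕ} {c : ℕ → V} {e : Sym2 V} (he : e ∈ cycEdges k c) {v : V}
    (hv : v ∈ e) : ∃ i < k, c i = v := by
  obtain ⟨i, hi, rfl⟩ := mem_image.1 he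
  rw [mem_range] at hi
  rcases Sym2.mem_iff.1 hv with rfl | rfl
  · exact ⟨i, hi, rfl⟩
  · exact ⟨_, Nat.mod_lt _ (by omega), rfl⟩

theorem IsCyc.edeg_two {A : Finset (Sym2 V)} {k : ℕ} {c : ℕ → V} (h : IsCyc A k c) {i : ℕ}
    (hi : i < k) : edeg (cycEdges k c) (c i) = 2 := by
  have hk := h.1
  set p := if i = 0 then k - 1 else i - 1 with hp
  have hpk : p < k := by simp only [hp]; split_ifs <;> omega
  have hps : (p + 1) % k = i := by
    rcases succ_mod hpk with ⟨h1, h2⟩ | ⟨h1, h2⟩ <;> rw [h2] <;> simp only [hp] at h1 h2 ⊢ <;>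
      split_ifs at h1 h2 ⊢ <;> omega
  have hne : p ≠ i := by simp only [hp]; split_ifs <;> omega
  have : (cycEdges k c).filter (fun e => c i ∈ e) =
      ({p, i} : Finset ℕ).image (fun j => s(c j, c ((j + 1) % k))) := by
    ext e
    simp only [mem_filter, cycEdges, mem_image, mem_range, mem_insert, mem_singleton]
    constructor
    · rintro ⟨⟨j, hj, rfl⟩, hmem⟩
      rcases Sym2.mem_iff.1 hmem with hc | hc
      · exact ⟨j, .inr (h.2.1 hi hj hc).symm, rfl⟩
      · have hji := h.2.1 hi (Nat.mod_lt _ (by omega)) hc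
        refine ⟨j, .inl ?_, rfl⟩
        rcases succ_mod hj with ⟨_, h2⟩ | ⟨_, h2⟩ <;>
          rcases succ_mod hpk with ⟨_, h4⟩ | ⟨_, h4⟩ <;> omega
    · rintro ⟨j, rfl | rfl, rfl⟩
      · exact ⟨⟨p, hpk, rfl⟩, by rw [hps]; exact Sym2.mem_mk_right _ _⟩
      · exact ⟨⟨_, hi, rfl⟩, Sym2.mem_mk_left _ _⟩
  rw [edeg, this, card_image_of_injOn (h.edge_inj.mono (by
    intro j hj
    simp only [coe_insert, coe_singleton, Set.mem_insert_iff, Set.mem_singleton_iff] at hj
    simp only [coe_range, Set.mem_Iio]
    rcases hj with rfl | rfl <;> assumption)), card_pair hne]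

theorem IsCyc.edeg_cases {A : Finset (Sym2 V)} {k : ℕ} {c : ℕ → V} (h : IsCyc A k c) (v : V) :
    edeg (cycEdges k c) v = 0 ∨ edeg (cycEdges k c) v = 2 := by
  by_cases hv : ∃ i < k, c i = v
  · obtain ⟨i, hi, rfl⟩ := hv
    exact .inr (h.edeg_two hi)
  · left
    rw [edeg, card_eq_zero, filter_eq_empty_iff]
    exact fun e he hve => hv (cyc_mem_endpoint he hve)

/-- A set without cycles and with an edge has two distinct vertices of degree one. -/
theorem exists_two_leaves {A : Finset (Sym2 V)} (hne : A.Nonempty) (hloop : ∀ e ∈ A, ¬ e.IsDiag)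
    (hA : ¬ HasCyc A) : ∃ u w, u ≠ w ∧ edeg A u = 1 ∧ edeg A w = 1 := by
  let P : ℕ → Prop := fun n => ∃ c : ℕ → V, Set.InjOn c (Set.Iic n) ∧
    ∀ i < n, s(c i, c (i + 1)) ∈ A
  have hbound : ∀ n, P n → n ≤ Fintype.card V := by
    rintro n ⟨c, hc, -⟩
    have : ((range (n + 1)).image c).card ≤ Fintype.card V := card_le_univ _
    rw [card_image_of_injOn (hc.mono (by intro x hx; simp at hx ⊢; omega)), card_range] at this
    omega
  have h1 : P 1 := by
    obtain ⟨e, he⟩ := hne
    induction e using Sym2.ind with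
    | h a b =>
      have hab : a ≠ b := fun h => hloop _ he (by simp [h])
      refine ⟨fun i => if i = 0 then a else b, ?_, ?_⟩
      · intro i hi j hj hij
        simp only [Set.mem_Iic] at hi hj
        interval_cases i <;> interval_cases j <;> simp_all [eq_comm]
      · intro i hi
        interval_cases i
        simpa using he
  set n := Nat.findGreatest P (Fintype.card V)
  have hn : P n := Nat.findGreatest_spec (hbound 1 h1) h1
  have hn1 : 1 ≤ n := Nat.le_findGreatest (hbound 1 h1) h1
  obtain ⟨c, hc, hce⟩ := hn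
  have main : ∀ d : ℕ → V, Set.InjOn d (Set.Iic n) → (∀ i < n, s(d i, d (i + 1)) ∈ A) →
      edeg A (d 0) = 1 := by
    intro d hd hde
    rw [edeg, card_eq_one]
    refine ⟨s(d 0, d 1), ?_⟩
    ext e
    simp only [mem_filter, mem_singleton]
    refine ⟨fun ⟨he, hmem⟩ => ?_, fun h => h ▸ ⟨hde 0 (by omega), Sym2.mem_mk_left _ _⟩⟩
    obtain ⟨w, rfl⟩ := hmem
    by_contra hne'
    have hw0 : w ≠ d 0 := fun h => hloop _ he (by simp [h])
    have hw1 : w ≠ d 1 := fun h => hne' (by rw [h])
    by_cases hwp : ∃ i ≤ n, d i = w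
    · obtain ⟨i, hi, rfl⟩ := hwp
      have hi2 : 2 ≤ i := by
        by_contra h
        interval_cases i
        · exact hw0 rfl
        · exact hw1 rfl
      refine hA ⟨i + 1, d, by omega, hd.mono (by intro x hx; simp at hx ⊢; omega), ?_⟩
      intro j hj
      rcases succ_mod hj with ⟨h1, h2⟩ | ⟨h1, h2⟩
      · rw [h2]; exact hde j (by omega)
      · rw [h2]
        obtain rfl : j = i := by omega
        rw [Sym2.eq_swap]; exact he
    · have hext : P (n + 1) := by
        refine ⟨fun i => if i = 0 then w else d (i - 1), ?_, ?_⟩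
        · intro a ha b hb hab
          simp only [Set.mem_Iic] at ha hb
          simp only at hab
          split_ifs at hab with h₁ h₂ h₂
          · omega
          · exact absurd ⟨b - 1, by omega, hab.symm⟩ hwp
          · exact absurd ⟨a - 1, by omega, hab⟩ hwp
          · have := hd (show a - 1 ∈ Set.Iic n by simp; omega)
              (show b - 1 ∈ Set.Iic n by simp; omega) hab
            omega
        · intro i hi
          rcases Nat.eq_zero_or_pos i with rfl | hi0
          · simp only [if_pos, Nat.zero_add, one_ne_zero, if_false, Nat.sub_self]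
            rw [Sym2.eq_swap]; exact he
          · simp only [Nat.pos_iff_ne_zero.1 hi0, if_false, Nat.succ_ne_zero]
            have := hde (i - 1) (by omega)
            rw [show i - 1 + 1 = i by omega] at this
            simpa using this
      have := Nat.le_findGreatest (hbound _ hext) hext
      omega
  refine ⟨c 0, c n, ?_, main c hc hce, ?_⟩
  · intro h
    have := hc (show 0 ∈ Set.Iic n by simp) (show n ∈ Set.Iic n by simp) h
    omega
  · have := main (fun i => c (n - i)) ?_ ?_
    · simpa using this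
    · intro a ha b hb hab
      simp only [Set.mem_Iic] at ha hb
      have := hc (show n - a ∈ Set.Iic n by simp) (show n - b ∈ Set.Iic n by simp) hab
      omega
    · intro i hi
      have := hce (n - (i + 1)) (by omega)
      rw [show n - (i + 1) + 1 = n - i by omega] at this
      rw [Sym2.eq_swap]; exact this

theorem edeg_inter_add (A B : Finset (Sym2 V)) (v : V) :
    edeg (A \ B ∪ B \ A) v + 2 * edeg (A ∩ B) v = edeg A v + edeg B v := by
  simp only [edeg]
  have hd : Disjoint (A \ B) (B \ A) := disjoint_sdiff_sdiff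
  have h1 : A = A \ B ∪ A ∩ B := (sdiff_union_inter A B).symm
  have h2 : B = B \ A ∪ A ∩ B := by rw [inter_comm]; exact (sdiff_union_inter B A).symm
  have d1 : Disjoint (A \ B) (A ∩ B) := disjoint_sdiff_inter A B
  have d2 : Disjoint (B \ A) (A ∩ B) := by rw [inter_comm]; exact disjoint_sdiff_inter B A
  conv_rhs =>
    rw [h1, filter_union, card_union_of_disjoint (disjoint_filter_filter d1)]
  have e2 : (B.filter (fun e => v ∈ e)).card =
      ((B \ A).filter (fun e => v ∈ e)).card + ((A ∩ B).filter (fun e => v ∈ e)).card := by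
    conv_lhs => rw [h2]
    rw [filter_union, card_union_of_disjoint (disjoint_filter_filter d2)]
  rw [filter_union, card_union_of_disjoint (disjoint_filter_filter hd)]
  have e3 : ((A \ B ∪ A ∩ B) ).filter (fun e => v ∈ e) = A.filter (fun e => v ∈ e) := by rw [← h1]
  omega

/-- A shortest cycle, as an edge set. -/
structure Shortest (A : Finset (Sym2 V)) (k : ℕ) (c : ℕ → V) : Prop where
  cyc : IsCyc A k c
  min : ∀ k' c', IsCyc A k' c' → k ≤ k'

theorem exists_shortest {A : Finset (Sym2 V)} (h : HasCyc A) : ∃ k c, Shortest A k c := by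
  classical
  obtain ⟨c, hc⟩ := Nat.find_spec (p := fun k => ∃ c, IsCyc A k c) h
  exact ⟨_, c, hc, fun k' c' h' => Nat.find_min' (p := fun k => ∃ c, IsCyc A k c) h ⟨c', h'⟩⟩

theorem Shortest.induced {A : Finset (Sym2 V)} {k : ℕ} {c : ℕ → V} (h : Shortest A k c)
    (hloop : ∀ e ∈ A, ¬ e.IsDiag) {e : Sym2 V} (he : e ∈ A) (hne : e ∉ cycEdges k c)
    {a b : ℕ} (ha : a < k) (hb : b < k) : e ≠ s(c a, c b) := by
  rintro rfl
  have hab : a ≠ b := fun h => hloop _ he (by simp [h])
  wlog hlt : a < b generalizing a b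
  · rw [Sym2.eq_swap] at he hne
    exact this hb ha he hne (Ne.symm hab) (by omega)
  have h1 : b ≠ a + 1 := by
    rintro rfl
    exact hne (mem_image.2 ⟨a, mem_range.2 ha, by rw [Nat.mod_eq_of_lt hb]⟩)
  have h2 : ¬ (a = 0 ∧ b + 1 = k) := by
    rintro ⟨rfl, hbk⟩
    refine hne (mem_image.2 ⟨b, mem_range.2 hb, ?_⟩)
    rw [hbk, Nat.mod_self, Sym2.eq_swap]
  have hc : IsCyc A (b - a + 1) (fun i => c (a + i)) := by
    refine ⟨by omega, fun x hx y hy hxy => ?_, fun i hi => ?_⟩
    · simp only [Set.mem_Iio] at hx hy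
      have := h.cyc.2.1 (show a + x ∈ Set.Iio k by simp; omega)
        (show a + y ∈ Set.Iio k by simp; omega) hxy
      omega
    · show s(c (a + i), c (a + (i + 1) % (b - a + 1))) ∈ A
      rcases succ_mod hi with ⟨h3, h4⟩ | ⟨h3, h4⟩ <;> rw [h4]
      · have := h.cyc.2.2 (a + i) (by omega)
        rw [Nat.mod_eq_of_lt (by omega : a + i + 1 < k)] at this
        exact this
      · rw [show a + i = b by omega, Nat.add_zero, Sym2.eq_swap]
        exact he
  have := h.min _ _ hc
  omega

theorem Shortest.self_eq {A : Finset (Sym2 V)} {k : ℕ} {c : ℕ → V} (h : IsCyc A k c)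
    {k' : ℕ} {c' : ℕ → V} (h' : IsCyc (cycEdges k c) k' c') :
    cycEdges k' c' = cycEdges k c := by
  have hk := h.1
  have hsub := h'.subset
  have step : ∀ i < k, (∃ j < k', c' j = c i) →
      s(c i, c ((i + 1) % k)) ∈ cycEdges k' c' ∧ ∃ j < k', c' j = c ((i + 1) % k) := by
    rintro i hi ⟨j, hj, hji⟩
    have h2 := h.edeg_two hi
    have h2' := h'.edeg_two hj
    rw [hji] at h2'
    have heq : (cycEdges k' c').filter (fun e => c i ∈ e) =
        (cycEdges k c).filter (fun e => c i ∈ e) :=
      eq_of_subset_of_card_le (filter_subset_filter _ hsub) (by simp only [edeg] at h2 h2'; omega)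
    have hm : s(c i, c ((i + 1) % k)) ∈ (cycEdges k c).filter (fun e => c i ∈ e) :=
      mem_filter.2 ⟨mem_image.2 ⟨i, mem_range.2 hi, rfl⟩, Sym2.mem_mk_left _ _⟩
    rw [← heq] at hm
    exact ⟨(mem_filter.1 hm).1, cyc_mem_endpoint (mem_filter.1 hm).1 (Sym2.mem_mk_right _ _)⟩
  have hk' := h'.1
  obtain ⟨i₀, hi₀, hi₀e⟩ := cyc_mem_endpoint (h'.2.2 0 (by omega)) (Sym2.mem_mk_left _ _)
  have walk : ∀ t, ∃ j < k', c' j = c ((i₀ + t) % k) := by
    intro t
    induction t with
    | zero => exact ⟨0, by omega, by rw [Nat.add_zero, Nat.mod_eq_of_lt hi₀, hi₀e]⟩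
    | succ t ih =>
      have := (step _ (Nat.mod_lt _ (by omega)) ih).2
      rwa [Nat.mod_add_mod, Nat.add_assoc] at this
  apply Subset.antisymm hsub
  intro e he
  obtain ⟨i, hi, rfl⟩ := mem_image.1 he
  rw [mem_range] at hi
  refine (step i hi ?_).1
  have := walk (k - i₀ + i)
  rwa [show i₀ + (k - i₀ + i) = k + i by omega, Nat.add_mod_left, Nat.mod_eq_of_lt hi] at this

theorem cyc_covered {A : Finset (Sym2 V)} {k : ℕ} {c : ℕ → V} (h : IsCyc A k c) :
    Covered {c 0} (cycEdges k c) := by
  have hk := h.1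
  have reach : ∀ i < k, Reach {c 0} (cycEdges k c) (c i) := by
    intro i
    induction i with
    | zero => intro _; exact .base (mem_singleton_self _)
    | succ i ih =>
      intro hi
      refine .step (ih (by omega)) (mem_image.2 ⟨i, mem_range.2 (by omega), ?_⟩)
      rw [Nat.mod_eq_of_lt hi]
  intro e he
  obtain ⟨i, hi, rfl⟩ := mem_image.1 he
  exact ⟨c i, Sym2.mem_mk_left _ _, reach i (mem_range.1 hi)⟩

/-- Edges outside a cycle of a connected set are reached from the cycle. -/
theorem Conn.rest_covered {A : Finset (Sym2 V)} (hA : Conn A) {k : ℕ} {c : ℕ → V}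
    (h : IsCyc A k c) : Covered ((range k).image c) (A \ cycEdges k c) := by
  have hk := h.1
  have key : ∀ v, Reach {c 0} A v → Reach ((range k).image c) (A \ cycEdges k c) v := by
    intro v hv
    induction hv with
    | base h => rw [mem_singleton] at h; exact .base (mem_image.2 ⟨0, by simp; omega, h.symm⟩)
    | @step a b _ he ih =>
      by_cases hc : s(a, b) ∈ cycEdges k c
      · obtain ⟨i, hi, hib⟩ := cyc_mem_endpoint hc (Sym2.mem_mk_right _ _)
        exact .base (mem_image.2 ⟨i, mem_range.2 hi, hib⟩)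
      · exact .step ih (mem_sdiff.2 ⟨he, hc⟩)
  have h0 : c 0 ∈ vsupp A := mem_vsupp.2 ⟨_, h.2.2 0 (by omega), Sym2.mem_mk_left _ _⟩
  intro e he
  obtain ⟨v, hv, hr⟩ := hA.2 _ h0 e (mem_sdiff.1 he).1
  exact ⟨v, hv, key v hr⟩

/-- A connected set without leaves, other than a cycle, has at least half a shortest cycle
many edges outside this cycle. -/
theorem Shortest.two_mul_rest {A : Finset (Sym2 V)} (hA : Conn A)
    (hloop : ∀ e ∈ A, ¬ e.IsDiag) {k : ℕ} {c : ℕ → V} (h : Shortest A k c)
    (hne : A ≠ cycEdges k c) (hleaf : ∀ v, edeg A v ≠ 1) :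
    k ≤ 2 * (A \ cycEdges k c).card := by
  have hk := h.cyc.1
  set C := cycEdges k c
  have hCA : C ⊆ A := h.cyc.subset
  obtain ⟨f, hf⟩ : (A \ C).Nonempty :=
    sdiff_nonempty.2 (fun h' => hne (Subset.antisymm h' hCA))
  obtain ⟨i, hi, f', hf', hcf⟩ : ∃ i < k, ∃ f ∈ A \ C, c i ∈ f := by
    by_contra hno
    simp only [not_exists, not_and] at hno
    obtain ⟨v, hv, hr⟩ := hA.rest_covered h.cyc f hf
    have : ∀ w, Reach ((range k).image c) (A \ C) w → ∃ i < k, c i = w := by
      intro w hw
      induction hw with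
      | base h' => simpa using mem_image.1 h'
      | step _ he ih =>
        obtain ⟨i, hi, rfl⟩ := ih
        exact absurd (Sym2.mem_mk_left _ _) (hno i hi _ he)
    obtain ⟨i, hi, rfl⟩ := this v hr
    exact hno i hi f hf hv
  set e0 := s(c i, c ((i + 1) % k))
  have he0 : e0 ∈ C := mem_image.2 ⟨i, mem_range.2 hi, rfl⟩
  set B := A.erase e0
  have hdeg : 2 ≤ edeg B (c i) := by
    have h3 : 3 ≤ edeg A (c i) := by
      have h2 := h.cyc.edeg_two hi
      have : insert f' (C.filter (fun e => c i ∈ e)) ⊆ A.filter (fun e => c i ∈ e) := by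
        intro x hx
        rcases mem_insert.1 hx with rfl | hx
        · exact mem_filter.2 ⟨(mem_sdiff.1 hf').1, hcf⟩
        · exact filter_subset_filter _ hCA hx
      have := card_le_card this
      rw [card_insert_of_notMem (fun hx => (mem_sdiff.1 hf').2 (mem_filter.1 hx).1)] at this
      simp only [edeg, C] at h2 this ⊢
      omega
    simp only [edeg, B] at h3 ⊢
    rw [filter_erase]
    have := pred_card_le_card_erase (s := A.filter (fun e => c i ∈ e)) (a := e0)
    omega
  have hB : HasCyc B := by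
    by_contra hB
    have hBne : B.Nonempty := by
      rw [← card_pos]
      have := card_le_card (filter_subset (fun e => c i ∈ e) B)
      simp only [edeg] at hdeg
      omega
    obtain ⟨u, w, huw, hu, hw⟩ :=
      exists_two_leaves hBne (fun e he => hloop e (mem_of_mem_erase he)) hB
    have aux : ∀ z, edeg B z = 1 → z = c ((i + 1) % k) := by
      intro z hz
      by_contra hz'
      by_cases hzi : z = c i
      · subst hzi; omega
      · refine hleaf z ?_
        rw [← hz, edeg, edeg, filter_erase, erase_eq_of_notMem]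
        simp [e0, hzi, hz']
    exact huw ((aux u hu).trans (aux w hw).symm)
  obtain ⟨k', c', hc'⟩ := hB
  set C' := cycEdges k' c'
  have hc'A : IsCyc A k' c' := hc'.mono (erase_subset _ _)
  have hkk' := h.min _ _ hc'A
  set D := C \ C' ∪ C' \ C
  have hDne : D.Nonempty := ⟨e0, mem_union_left _ (mem_sdiff.2 ⟨he0, fun hx =>
    (mem_erase.1 (hc'.subset hx)).1 rfl⟩)⟩
  have hDA : D ⊆ A := union_subset (sdiff_subset.trans hCA) (sdiff_subset.trans hc'A.subset)
  have hDc : HasCyc D := by
    by_contra hD
    obtain ⟨u, -, -, hu, -⟩ := exists_two_leaves hDne (fun e he => hloop e (hDA he)) hD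
    have := edeg_inter_add C C' u
    rcases h.cyc.edeg_cases u with a | a <;> rcases hc'.edeg_cases u with b | b <;>
      simp only [C, C', D] at this hu <;> omega
  obtain ⟨k'', c'', hc''⟩ := hDc
  have h1 : k ≤ D.card := by
    have := h.min _ _ (hc''.mono hDA)
    have := card_le_card hc''.subset
    rw [hc''.card_edges] at this
    omega
  have h2 : C.card = k := h.cyc.card_edges
  have h3 : C'.card = k' := hc'.card_edges
  have h4 := card_union_le (C \ C') (C' \ C)
  have h5 : (C' \ C).card ≤ (A \ C).card :=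
    card_le_card (sdiff_subset_sdiff hc'A.subset le_rfl)
  have h6 := card_sdiff_add_card_inter C C'
  have h7 := card_sdiff_add_card_inter C' C
  rw [inter_comm C' C] at h7
  simp only [D] at h1
  omega

theorem IsCyc.even_of_coloring {A : Finset (Sym2 V)} {k : ℕ} {c : ℕ → V} (h : IsCyc A k c)
    (col : V → Bool) (hcol : ∀ a b, s(a, b) ∈ A → col a ≠ col b) : Even k := by
  have hk := h.1
  have alt : ∀ i < k, (col (c i) = col (c 0) ↔ Even i) := by
    intro i
    induction i with
    | zero => simp
    | succ i ih =>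
      intro hi
      have h1 := hcol _ _ (h.2.2 i (by omega))
      rw [Nat.mod_eq_of_lt hi] at h1
      rw [Nat.even_add_one, ← ih (by omega)]
      revert h1
      cases col (c i) <;> cases col (c (i + 1)) <;> cases col (c 0) <;> simp
  have h1 := hcol _ _ (h.2.2 (k - 1) (by omega))
  rw [show k - 1 + 1 = k by omega, Nat.mod_self] at h1
  have h2 := (alt (k - 1) (by omega)).not.1 h1
  rw [Nat.not_even_iff_odd] at h2
  obtain ⟨r, hr⟩ := h2
  exact ⟨r + 1, by omega⟩

end

end Vale.Agent.P050
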