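import Vale.Agent.P050.Graph

/-! A lower bound for multiplicative edge-set sums (cluster expansion by induction). -/

namespace Vale.Agent.P050

open Finset
open scoped Classical

set_option linter.unusedSectionVars false

noncomputable section

variable {V : Type*} [Fintype V]

def inside (E : Finset (Sym2 V)) (S : Finset V) : Finset (Sym2 V) :=
  E.filter (fun e => ∀ v ∈ e, v ∈ S)

def Zsum (E : Finset (Sym2 V)) (T : Finset (Sym2 V) → ℝ) (S : Finset V) : ℝ :=
  ∑ A ∈ (inside E S).powerset, T A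

def ell (T : Finset (Sym2 V) → ℝ) (A : Finset (Sym2 V)) : ℝ :=
  (4 / 5) * (4 / 5) ^ (vsupp A).card * max (T A) 0 -
    (6 / 5) * (5 / 4) ^ (vsupp A).card * max (-T A) 0

theorem subset_inside {E A : Finset (Sym2 V)} {S : Finset V} :
    A ⊆ inside E S ↔ A ⊆ E ∧ vsupp A ⊆ S := by
  constructor
  · intro h
    refine ⟨fun e he => (mem_filter.1 (h he)).1, fun v hv => ?_⟩
    obtain ⟨e, he, hve⟩ := mem_vsupp.1 hv
    exact (mem_filter.1 (h he)).2 v hve
  · rintro ⟨h₁, h₂⟩ e he
    exact mem_filter.2 ⟨h₁ he, fun v hv => h₂ (mem_vsupp.2 ⟨e, he, hv⟩)⟩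

theorem vsupp_union (A B : Finset (Sym2 V)) : vsupp (A ∪ B) = vsupp A ∪ vsupp B := by
  ext v
  simp only [mem_vsupp, mem_union]
  exact ⟨fun ⟨e, he, hv⟩ => he.elim (fun h => .inl ⟨e, h, hv⟩) (fun h => .inr ⟨e, h, hv⟩),
    fun h => h.elim (fun ⟨e, he, hv⟩ => ⟨e, .inl he, hv⟩) (fun ⟨e, he, hv⟩ => ⟨e, .inr he, hv⟩)⟩

variable {E : Finset (Sym2 V)} {T : Finset (Sym2 V) → ℝ}

theorem Zsum_rec (hmul : ∀ A B, Disjoint (vsupp A) (vsupp B) → T (A ∪ B) = T A * T B)
    {S : Finset V} {u : V} (hu : u ∈ S) :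
    Zsum E T S = ∑ G ∈ (inside E S).powerset.filter (Covered {u}),
      T G * Zsum E T (S.erase u \ vsupp G) := by
  simp only [Zsum, mul_sum]
  rw [sum_sigma']
  refine sum_nbij' (fun A => ⟨comp A u, A \ comp A u⟩) (fun p => p.1 ∪ p.2) ?_ ?_ ?_ ?_ ?_
  · intro A hA
    rw [mem_powerset, subset_inside] at hA
    simp only [mem_sigma, mem_filter, mem_powerset, subset_inside]
    obtain ⟨hd, hu'⟩ := comp_disjoint A u
    refine ⟨⟨⟨(comp_subset A u).trans hA.1, (vsupp_mono (comp_subset A u)).trans hA.2⟩,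
      comp_covered A u⟩, sdiff_subset.trans hA.1, fun v hv => ?_⟩
    exact mem_sdiff.2 ⟨mem_erase.2 ⟨fun h => hu' (h ▸ hv), hA.2 (vsupp_mono sdiff_subset hv)⟩,
      fun h => disjoint_left.1 hd h hv⟩
  · rintro ⟨G, B⟩ hp
    simp only [mem_sigma, mem_filter, mem_powerset, subset_inside] at hp
    rw [mem_powerset, subset_inside]
    refine ⟨union_subset hp.1.1.1 hp.2.1, ?_⟩
    rw [vsupp_union]
    exact union_subset hp.1.1.2 (hp.2.2.trans (sdiff_subset.trans (erase_subset _ _)))
  · intro A _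
    exact union_sdiff_of_subset (comp_subset A u)
  · rintro ⟨G, B⟩ hp
    simp only [mem_sigma, mem_filter, mem_powerset, subset_inside] at hp
    have hd : Disjoint (vsupp G) (vsupp B) :=
      disjoint_left.2 (fun v hv hv' => (mem_sdiff.1 (hp.2.2 hv')).2 hv)
    have hu' : u ∉ vsupp B := fun h => (mem_erase.1 (mem_sdiff.1 (hp.2.2 h)).1).1 rfl
    have hc := comp_union hp.1.2 hd hu'
    simp only [hc, Sigma.mk.injEq, heq_eq_eq, true_and]
    refine union_sdiff_cancel_left (disjoint_left.2 (fun e he he' => ?_))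
    obtain ⟨v, hv⟩ : ∃ v, v ∈ e := by
      induction e using Sym2.ind with
      | h a b => exact ⟨a, Sym2.mem_mk_left _ _⟩
    exact disjoint_left.1 hd (mem_vsupp.2 ⟨e, he, hv⟩) (mem_vsupp.2 ⟨e, he', hv⟩)
  · intro A _
    rw [← hmul _ _ (comp_disjoint A u).1, union_sdiff_of_subset (comp_subset A u)]

theorem exp_le_one_add {z : ℝ} (hz : |z| ≤ 1 / 10) : Real.exp (z - 2 * z ^ 2) ≤ 1 + z := by
  obtain ⟨h1, h2⟩ := abs_le.1 hz
  have hw : |z - 2 * z ^ 2| ≤ 6 / 5 * |z| := by
    refine (abs_sub _ _).trans ?_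
    rw [abs_of_nonneg (by positivity : 0 ≤ 2 * z ^ 2), ← sq_abs z]
    nlinarith [abs_nonneg z]
  have h3 := (abs_le.1 (Real.abs_exp_sub_one_sub_id_le (x := z - 2 * z ^ 2) (by linarith))).2
  have h4 : (z - 2 * z ^ 2) ^ 2 ≤ 36 / 25 * z ^ 2 := by
    have := pow_le_pow_left₀ (abs_nonneg _) hw 2
    rw [sq_abs, mul_pow, sq_abs] at this
    linarith
  linarith [sq_nonneg z]

/-- The cluster bound. -/
theorem polymer_bound (h0 : T ∅ = 1)
    (hmul : ∀ A B, Disjoint (vsupp A) (vsupp B) → T (A ∪ B) = T A * T B)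
    (hsmall : ∀ u, ∑ G ∈ E.powerset.filter (fun G => G.Nonempty ∧ Covered {u} G),
      |T G| * ((5 / 4 : ℝ) ^ 3) ^ (vsupp G).card ≤ 1 / 10) :
    Real.exp (∑ G ∈ E.powerset.filter Conn, ell T G) ≤ ∑ A ∈ E.powerset, T A := by
  suffices H : ∀ n, ∀ S : Finset V, S.card ≤ n → 0 < Zsum E T S ∧
      (∀ R ⊆ S, (4 / 5 : ℝ) ^ R.card * Zsum E T S ≤ Zsum E T (S \ R) ∧
        Zsum E T (S \ R) ≤ (5 / 4 : ℝ) ^ R.card * Zsum E T S) ∧
      Real.exp (∑ G ∈ (inside E S).powerset.filter Conn, ell T G) ≤ Zsum E T S by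
    have h := (H _ univ le_rfl).2.2
    have hi : inside E (univ : Finset V) = E := by ext e; simp [inside]
    rwa [Zsum, hi] at h
  have base : Zsum E T (∅ : Finset V) = 1 ∧ (inside E (∅ : Finset V)).powerset.filter Conn = ∅ := by
    have hi : inside E (∅ : Finset V) = ∅ := by
      rw [inside, filter_eq_empty_iff]
      intro e _ h
      induction e using Sym2.ind with
      | h a b => simpa using h a (Sym2.mem_mk_left a b)
    refine ⟨by simp [Zsum, hi, h0], ?_⟩
    rw [hi]
    simp [Conn, filter_singleton]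
  intro n
  induction n with
  | zero =>
    intro S hS
    obtain rfl : S = ∅ := card_eq_zero.1 (by omega)
    refine ⟨by rw [base.1]; norm_num, fun R hR => ?_, by simp [base.2, base.1]⟩
    obtain rfl : R = ∅ := subset_empty.1 hR
    simp
  | succ n ih =>
    intro S hS
    by_cases hSn : S.card ≤ n
    · exact ih S hSn
    have hcard : ∀ u ∈ S, ∀ S' ⊆ S.erase u, S'.card ≤ n := by
      intro u hu S' h
      have := card_le_card h
      rw [card_erase_of_mem hu] at this
      omega
    have main : ∀ u ∈ S, 0 < Zsum E T S ∧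
        (4 / 5 : ℝ) * Zsum E T S ≤ Zsum E T (S.erase u) ∧
        Zsum E T (S.erase u) ≤ (5 / 4 : ℝ) * Zsum E T S ∧
        Real.exp (∑ G ∈ (inside E S).powerset.filter Conn, ell T G) ≤ Zsum E T S := by
      intro u hu
      obtain ⟨hpos, hR, hexp⟩ := ih _ (hcard u hu _ le_rfl)
      set Z₀ := Zsum E T (S.erase u)
      set P := (inside E S).powerset.filter (fun G => G.Nonempty ∧ Covered {u} G) with hP
      set ρ := fun G => Zsum E T (S.erase u \ vsupp G) / Z₀
      have hρ : ∀ G, (4 / 5 : ℝ) ^ (vsupp G).card ≤ ρ G ∧ ρ G ≤ (5 / 4 : ℝ) ^ (vsupp G).card := by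
        intro G
        have h := hR (S.erase u ∩ vsupp G) inter_subset_left
        rw [sdiff_inter_self_left] at h
        have hc : (S.erase u ∩ vsupp G).card ≤ (vsupp G).card := card_le_card inter_subset_right
        refine ⟨(le_div_iff₀ hpos).2 (le_trans ?_ h.1), (div_le_iff₀ hpos).2 (h.2.trans ?_)⟩
        · exact mul_le_mul_of_nonneg_right
            (pow_le_pow_of_le_one (by norm_num) (by norm_num) hc) hpos.le
        · exact mul_le_mul_of_nonneg_right (pow_le_pow_right₀ (by norm_num) hc) hpos.le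
      set z := ∑ G ∈ P, T G * ρ G
      have hZ : Zsum E T S = (1 + z) * Z₀ := by
        rw [Zsum_rec hmul hu]
        have hins : (inside E S).powerset.filter (Covered {u}) = insert ∅ P := by
          ext G
          simp only [hP, mem_filter, mem_insert, mem_powerset]
          rcases G.eq_empty_or_nonempty with rfl | hG
          · simp [Covered]
          · simp [hG, hG.ne_empty]
        rw [hins, sum_insert (by simp [hP]), h0, add_mul, sum_mul]
        congr 1
        · simp [Z₀, vsupp]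
        · refine sum_congr rfl (fun G _ => ?_)
          simp only [ρ]
          field_simp
      have hPsub : P ⊆ E.powerset.filter (fun G => G.Nonempty ∧ Covered {u} G) := by
        intro G hG
        simp only [hP, mem_filter, mem_powerset] at hG ⊢
        exact ⟨hG.1.trans (filter_subset _ _), hG.2⟩
      have h3 : ∑ G ∈ P, |T G| * ((5 / 4 : ℝ) ^ 3) ^ (vsupp G).card ≤ 1 / 10 :=
        (sum_le_sum_of_subset_of_nonneg hPsub (fun G _ _ => by positivity)).trans (hsmall u)
      have hzabs : |z| ≤ ∑ G ∈ P, |T G| * (5 / 4 : ℝ) ^ (vsupp G).card := by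
        refine (abs_sum_le_sum_abs _ _).trans (sum_le_sum (fun G _ => ?_))
        rw [abs_mul, abs_of_nonneg (le_trans (by positivity) (hρ G).1)]
        exact mul_le_mul_of_nonneg_left (hρ G).2 (abs_nonneg _)
      have hz : |z| ≤ 1 / 10 := hzabs.trans (le_trans (sum_le_sum (fun G _ =>
        mul_le_mul_of_nonneg_left (pow_le_pow_left₀ (by norm_num) (by norm_num) _)
          (abs_nonneg _))) h3)
      obtain ⟨hz1, hz2⟩ := abs_le.1 hz
      have hzsq : z ^ 2 ≤ 1 / 10 * ∑ G ∈ P, |T G| * (4 / 5 : ℝ) ^ (vsupp G).card := by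
        rw [← sq_abs]
        refine (pow_le_pow_left₀ (abs_nonneg z) hzabs 2).trans ?_
        refine le_trans (sum_sq_le_sum_mul_sum_of_sq_le_mul
          (f := fun G => |T G| * ((5 / 4 : ℝ) ^ 3) ^ (vsupp G).card)
          (g := fun G => |T G| * (4 / 5 : ℝ) ^ (vsupp G).card) P
          (fun G _ => by positivity) (fun G _ => by positivity) (fun G _ => le_of_eq ?_)) ?_
        · have : ((5 / 4 : ℝ) ^ 3) ^ (vsupp G).card * (4 / 5 : ℝ) ^ (vsupp G).card =
              ((5 / 4 : ℝ) ^ (vsupp G).card) ^ 2 := by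
            rw [← mul_pow, show (5/4:ℝ) ^ 3 * (4/5) = (5/4) ^ 2 by norm_num, ← pow_mul, ← pow_mul,
              mul_comm 2]
          rw [mul_mul_mul_comm, this]
          ring
        · exact mul_le_mul_of_nonneg_right h3 (sum_nonneg (fun G _ => by positivity))
      have hell : ∑ G ∈ P, ell T G ≤ z - 2 * z ^ 2 := by
        have : ∑ G ∈ P, ell T G ≤ ∑ G ∈ P, (T G * ρ G -
            1 / 5 * (|T G| * (4 / 5 : ℝ) ^ (vsupp G).card)) := by
          refine sum_le_sum (fun G _ => ?_)
          obtain ⟨l, r⟩ := hρ G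
          simp only [ell]
          rcases le_total 0 (T G) with h | h
          · rw [max_eq_left h, max_eq_right (neg_nonpos.2 h), abs_of_nonneg h]
            nlinarith
          · rw [max_eq_right h, max_eq_left (neg_nonneg.2 h), abs_of_nonpos h]
            have : (4 / 5 : ℝ) ^ (vsupp G).card ≤ (5 / 4 : ℝ) ^ (vsupp G).card :=
              pow_le_pow_left₀ (by norm_num) (by norm_num) _
            nlinarith
        rw [sum_sub_distrib, ← mul_sum] at this
        linarith [this, hzsq]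
      have hpos' : 0 < Zsum E T S := by rw [hZ]; exact mul_pos (by linarith) hpos
      refine ⟨hpos', by rw [hZ]; nlinarith, by rw [hZ]; nlinarith, ?_⟩
      have hsplit : (inside E S).powerset.filter Conn =
          (inside E (S.erase u)).powerset.filter Conn ∪ P := by
        ext G
        simp only [hP, mem_union, mem_filter, mem_powerset, subset_inside]
        constructor
        · rintro ⟨⟨h1, h2⟩, hc⟩
          by_cases huG : u ∈ vsupp G
          · exact .inr ⟨⟨h1, h2⟩, hc.1, hc.2 u huG⟩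
          · exact .inl ⟨⟨h1, fun v hv => mem_erase.2 ⟨fun h => huG (h ▸ hv), h2 hv⟩⟩, hc⟩
        · rintro (⟨⟨h1, h2⟩, hc⟩ | ⟨⟨h1, h2⟩, hne, hc⟩)
          · exact ⟨⟨h1, h2.trans (erase_subset _ _)⟩, hc⟩
          · exact ⟨⟨h1, h2⟩, Conn.of_covered hc hne⟩
      have hdisj : Disjoint ((inside E (S.erase u)).powerset.filter Conn) P := by
        rw [disjoint_left]
        intro G h h'
        simp only [hP, mem_filter, mem_powerset, subset_inside] at h h'
        exact (mem_erase.1 (h.1.2 (covered_root h'.2.2 h'.2.1))).1 rfl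
      rw [hsplit, sum_union hdisj, Real.exp_add, hZ, mul_comm (1 + z)]
      exact mul_le_mul hexp ((Real.exp_le_exp.2 hell).trans (exp_le_one_add hz))
        (Real.exp_pos _).le hpos.le
    obtain ⟨u, hu⟩ : S.Nonempty := card_pos.1 (by omega)
    obtain ⟨hpos, -, -, hexp⟩ := main u hu
    refine ⟨hpos, fun R hR => ?_, hexp⟩
    rcases R.eq_empty_or_nonempty with rfl | ⟨r, hr⟩
    · simp
    · obtain ⟨-, l1, r1, -⟩ := main r (hR hr)
      obtain ⟨-, hR', -⟩ := ih _ (hcard r (hR hr) _ le_rfl)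
      obtain ⟨l2, r2⟩ := hR' (R.erase r) (erase_subset_erase _ hR)
      have he : S.erase r \ R.erase r = S \ R := by
        ext x
        simp only [mem_sdiff, mem_erase, ne_eq]
        by_cases hx : x = r
        · simp [hx, hr]
        · simp [hx]
      rw [he] at l2 r2
      have hc : R.card = (R.erase r).card + 1 := (card_erase_add_one hr).symm
      rw [hc, pow_succ, pow_succ, mul_assoc, mul_assoc]
      exact ⟨(mul_le_mul_of_nonneg_left l1 (by positivity)).trans l2,
        r2.trans (mul_le_mul_of_nonneg_left r1 (by positivity))⟩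

theorem ell_lower {G : Finset (Sym2 V)} {A B : ℝ} (hA : 0 ≤ A) (hB : 0 ≤ B)
    (h : A - B ≤ T G) :
    (4 / 5 : ℝ) ^ ((vsupp G).card + 1) * A - 2 * (5 / 4) ^ (vsupp G).card * B ≤ ell T G := by
  simp only [ell]
  have h2 : (4 / 5 : ℝ) ^ (vsupp G).card ≤ (5 / 4) ^ (vsupp G).card :=
    pow_le_pow_left₀ (by norm_num) (by norm_num) _
  have hl : 0 < (4 / 5 : ℝ) ^ (vsupp G).card := by positivity
  rw [pow_succ]
  rcases le_total 0 (T G) with hT | hT
  · rw [max_eq_left hT, max_eq_right (neg_nonpos.2 hT)]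
    have : (4 / 5 : ℝ) ^ (vsupp G).card * A ≤ (4 / 5 : ℝ) ^ (vsupp G).card * (T G + B) :=
      mul_le_mul_of_nonneg_left (by linarith) hl.le
    have := mul_le_mul_of_nonneg_right h2 hB
    nlinarith
  · rw [max_eq_right hT, max_eq_left (neg_nonneg.2 hT)]
    have := mul_le_mul_of_nonneg_left (sub_le_iff_le_add.1 h) hl.le
    have := mul_le_mul_of_nonneg_right h2 hB
    have hTB : 0 ≤ T G + B := by linarith
    have := mul_nonneg (hl.le.trans h2) hTB
    have := mul_nonpos_of_nonneg_of_nonpos hl.le hT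
    nlinarith

end

end Vale.Agent.P050
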