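import Vale.Agent.P050.Finite
import Vale.Agent.P050.Density

/-! From finite weighted graphs to kernels by sampling. -/

namespace Vale.Agent.P050

open Finset MeasureTheory
open scoped Classical

set_option linter.unusedSectionVars false

noncomputable section

variable {Ω : Type*} [MeasurableSpace Ω] {μ : Measure Ω} [IsProbabilityMeasure μ]

theorem pi_map_inj {ι κ : Type*} [Fintype ι] [Fintype κ] (φ : ι → κ) (hφ : Function.Injective φ) :
    (Measure.pi (fun _ : κ => μ)).map (fun x i => x (φ i)) = Measure.pi (fun _ : ι => μ) := by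
  refine (Measure.pi_eq (fun s hs => ?_)).symm
  rw [Measure.map_apply (measurable_pi_lambda (fun (x : κ → Ω) i => x (φ i))
    (fun i => measurable_pi_apply _)) (MeasurableSet.univ_pi hs)]
  set t : κ → Set Ω := Function.extend φ s (fun _ => Set.univ)
  have hpre : (fun (x : κ → Ω) i => x (φ i)) ⁻¹' Set.univ.pi s = Set.univ.pi t := by
    ext x
    simp only [Set.mem_preimage, Set.mem_univ_pi]
    refine ⟨fun h k => ?_, fun h i => ?_⟩
    · by_cases hk : ∃ i, φ i = k
      · obtain ⟨i, rfl⟩ := hk
        simp only [t, hφ.extend_apply]; exact h i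
      · simp [t, Function.extend_apply' _ _ _ hk]
    · have := h (φ i)
      simpa [t, hφ.extend_apply] using this
  rw [hpre, Measure.pi_pi]
  rw [← prod_subset (subset_univ (univ.image φ)) (fun k _ hk => ?_), prod_image hφ.injOn]
  · exact prod_congr rfl (fun i _ => by simp [t, hφ.extend_apply])
  · have : ¬ ∃ i, φ i = k := fun ⟨i, hi⟩ => hk (mem_image.2 ⟨i, mem_univ _, hi⟩)
    simp [t, Function.extend_apply' _ _ _ this]

theorem measurePreserving_pair {κ : Type*} [Fintype κ] {a b : κ} (hab : a ≠ b) :
    MeasurePreserving (fun x : κ → Ω => (x a, x b)) (Measure.pi (fun _ : κ => μ)) (μ.prod μ) := by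
  refine ⟨(measurable_pi_apply a).prodMk (measurable_pi_apply b), ?_⟩
  refine (Measure.prod_eq (fun s t hs ht => ?_)).symm
  rw [Measure.map_apply ((measurable_pi_apply a).prodMk (measurable_pi_apply b)) (hs.prod ht)]
  set u : κ → Set Ω := fun k => if k = a then s else if k = b then t else Set.univ
  have hpre : (fun x : κ → Ω => (x a, x b)) ⁻¹' (s ×ˢ t) = Set.univ.pi u := by
    ext x
    simp only [Set.mem_preimage, Set.mem_prod, Set.mem_univ_pi, u]
    refine ⟨fun h k => ?_, fun h => ⟨?_, ?_⟩⟩
    · split_ifs with h1 h2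
      · exact h1 ▸ h.1
      · exact h2 ▸ h.2
      · trivial
    · simpa using h a
    · simpa [Ne.symm hab] using h b
  rw [hpre, Measure.pi_pi]
  rw [← prod_subset (subset_univ ({a, b} : Finset κ)) (fun k _ hk => ?_), prod_pair hab]
  · simp [u, Ne.symm hab]
  · simp only [mem_insert, mem_singleton, not_or] at hk
    simp [u, hk.1, hk.2]

variable {V : Type*} [Fintype V]

theorem measurable_eprod (W : Ω → Ω → ℝ) (hW : ∀ a b, W a b = W b a)
    (hmeas : Measurable (Function.uncurry W)) (E : Finset (Sym2 V)) {κ : Type*} (φ : V → κ) :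
    Measurable (fun x : κ → Ω => eprod W hW E (fun v => x (φ v))) := by
  simp only [eprod]
  refine Finset.measurable_prod _ (fun f _ => ?_)
  induction f using Sym2.ind with
  | h a b =>
    simp only [Sym2.lift_mk]
    have h2 : Measurable (fun x : κ → Ω => (x (φ a), x (φ b))) :=
      Measurable.prodMk (measurable_pi_apply (φ a)) (measurable_pi_apply (φ b))
    exact Measurable.comp (f := fun x : κ → Ω => (x (φ a), x (φ b))) hmeas h2

theorem integrable_eprod (W : Ω → Ω → ℝ) (hW : ∀ a b, W a b = W b a)
    (hmeas : Measurable (Function.uncurry W)) (E : Finset (Sym2 V)) (C : ℝ)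
    (hb : ∀ x : V → Ω, 0 ≤ eprod W hW E x ∧ eprod W hW E x ≤ C)
    {κ : Type*} [Fintype κ] (φ : V → κ) :
    Integrable (fun x : κ → Ω => eprod W hW E (fun v => x (φ v)))
      (Measure.pi (fun _ : κ => μ)) := by
  refine Integrable.of_bound (measurable_eprod W hW hmeas E φ).aestronglyMeasurable C
    (.of_forall (fun x => ?_))
  rw [Real.norm_eq_abs, abs_of_nonneg (hb _).1]
  exact (hb _).2

/-- The main estimate for a kernel that is uniformly close to one. -/
theorem sampling_bound (W : Ω → Ω → ℝ) (hW : ∀ a b, W a b = W b a)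
    (hmeas : Measurable (Function.uncurry W)) (hint : ∫ p, W p.1 p.2 ∂(μ.prod μ) = 1)
    (E : Finset (Sym2 V)) (hloop : ∀ e ∈ E, ¬ e.IsDiag) (col : V → Bool)
    (hcol : ∀ a b, s(a, b) ∈ E → col a ≠ col b) {Δ : ℕ} (hΔ : 1 ≤ Δ)
    (hdeg : ∀ v, edeg E v ≤ Δ) (hbd : ∀ a b, |W a b - 1| ≤ 1 / (1000 * (Δ : ℝ))) :
    1 ≤ ∫ x : V → Ω, eprod W hW E x ∂Measure.pi (fun _ => μ) := by
  have hΔr : (1 : ℝ) ≤ Δ := by exact_mod_cast hΔ
  have hε1 : 1 / (1000 * (Δ : ℝ)) ≤ 1 / 1000 :=
    one_div_le_one_div_of_le (by norm_num) (by linarith)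
  have hW01 : ∀ a b, 0 ≤ W a b ∧ W a b ≤ 2 := fun a b => by
    obtain ⟨h1, h2⟩ := abs_le.1 (hbd a b)
    constructor <;> linarith
  set e := E.card
  set v := Fintype.card V
  set t := ∫ x : V → Ω, eprod W hW E x ∂Measure.pi (fun _ => μ) with ht
  have hWab : ∀ {κ : Type} (a b : κ), Measurable (fun x : κ → Ω => W (x a) (x b)) := by
    intro κ a b
    have h2 : Measurable (fun x : κ → Ω => (x a, x b)) :=
      Measurable.prodMk (measurable_pi_apply a) (measurable_pi_apply b)
    exact Measurable.comp (f := fun x : κ → Ω => (x a, x b)) hmeas h2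
  have hb0 : ∀ x : V → Ω, 0 ≤ eprod W hW E x ∧ eprod W hW E x ≤ 2 ^ e := by
    intro x
    refine ⟨prod_nonneg (fun f _ => ?_), ?_⟩
    · induction f using Sym2.ind with
      | h a b => exact (hW01 _ _).1
    · rw [eprod, ← prod_const]
      refine prod_le_prod (fun f _ => ?_) (fun f _ => ?_)
      · induction f using Sym2.ind with
        | h a b => exact (hW01 _ _).1
      · induction f using Sym2.ind with
        | h a b => exact (hW01 _ _).2
  have hint' : ∀ {N : ℕ} (φ : V → Fin N),
      Integrable (fun x : Fin N → Ω => eprod W hW E (fun v => x (φ v)))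
        (Measure.pi (fun _ : Fin N => μ)) := fun φ =>
    integrable_eprod W hW hmeas E (2 ^ e) (fun x => ⟨(hb0 x).1, (hb0 x).2⟩) φ
  have ht0 : 0 ≤ t := integral_nonneg (fun x => (hb0 x).1)
  have ht2 : t ≤ 2 ^ e := by
    refine (integral_mono (integrable_eprod W hW hmeas E (2 ^ e) hb0 (fun v => v))
      (integrable_const (2 ^ e)) (fun x => (hb0 _).2)).trans ?_
    simp
  have key : ∀ N : ℕ, 2 ≤ N → v ≤ N →
      1 - (e : ℝ) / N - 2 ^ e * (v : ℝ) ^ 2 / N ≤ t := by
    intro N hN2 hvN
    haveI : Nonempty (Fin N) := ⟨⟨0, by omega⟩⟩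
    set P := Measure.pi (fun _ : Fin N => μ)
    have hNr : (2 : ℝ) ≤ N := by exact_mod_cast hN2
    have hNpos : (0 : ℝ) < N := by linarith
    set p := fun x : Fin N → Ω => (∑ i, ∑ j, W (x i) (x j)) / (N : ℝ) ^ 2
    set q := fun x : Fin N → Ω => (∑ φ : V → Fin N, eprod W hW E (fun v => x (φ v))) / (N : ℝ) ^ v
    have hpt : ∀ x, p x ^ e ≤ q x := by
      intro x
      have := finite_local (fun i j : Fin N => W (x i) (x j)) (fun i j => hW _ _) E hloop col hcol hΔ
        hdeg (fun i j => hbd _ _)
      simp only [Fintype.card_fin] at this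
      exact this
    have hWm : ∀ i j : Fin N, Integrable (fun x : Fin N → Ω => W (x i) (x j)) P := by
      intro i j
      refine Integrable.of_bound (hWab i j).aestronglyMeasurable 2 (.of_forall (fun x => ?_))
      show |W (x i) (x j)| ≤ 2
      rw [abs_of_nonneg (hW01 _ _).1]
      exact (hW01 _ _).2
    have hpint : Integrable p P :=
      (integrable_finsetSum _ (fun i _ => integrable_finsetSum _ (fun j _ => hWm i j))).div_const _
    have hpb : ∀ x, 0 ≤ p x ∧ p x ≤ 2 := by
      intro x
      refine ⟨div_nonneg (sum_nonneg (fun i _ => sum_nonneg (fun j _ => (hW01 _ _).1)))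
        (by positivity), (div_le_iff₀ (by positivity)).2 ?_⟩
      calc ∑ i, ∑ j, W (x i) (x j) ≤ ∑ _i : Fin N, ∑ _j : Fin N, (2 : ℝ) :=
            sum_le_sum (fun i _ => sum_le_sum (fun j _ => (hW01 _ _).2))
        _ = _ := by simp; ring
    have hpe : Integrable (fun x => p x ^ e) P := by
      refine Integrable.of_bound (hpint.1.pow e) (2 ^ e) (.of_forall (fun x => ?_))
      rw [Real.norm_eq_abs, abs_of_nonneg (pow_nonneg (hpb x).1 _)]
      exact pow_le_pow_left₀ (hpb x).1 (hpb x).2 _
    have hqint : Integrable q P := (integrable_finsetSum _ (fun φ _ => hint' φ)).div_const _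
    set c := ∫ x, p x ∂P
    have hc : 1 - 1 / (N : ℝ) ≤ c := by
      have hpair : ∀ i j : Fin N, (if i = j then (0 : ℝ) else 1) ≤ ∫ x, W (x i) (x j) ∂P := by
        intro i j
        split_ifs with hij
        · exact integral_nonneg (fun x => (hW01 _ _).1)
        · have hmp := measurePreserving_pair (μ := μ) hij
          refine le_of_eq ?_
          rw [← hint, ← hmp.map_eq, integral_map hmp.measurable.aemeasurable]
          exact hmeas.aestronglyMeasurable
      have hcs : c = (∑ i, ∑ j, ∫ x, W (x i) (x j) ∂P) / (N : ℝ) ^ 2 := by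
        simp only [c, p]
        rw [integral_div, integral_finsetSum _
          (fun i _ => integrable_finsetSum _ (fun j _ => hWm i j))]
        congr 1
        exact sum_congr rfl (fun i _ => integral_finsetSum _ (fun j _ => hWm i j))
      rw [hcs, le_div_iff₀ (by positivity)]
      refine le_trans (le_of_eq ?_) (sum_le_sum (fun i _ => sum_le_sum (fun j _ => hpair i j)))
      simp [sum_ite, filter_ne, Nat.cast_sub (show 1 ≤ N by omega)]
      field_simp
    have hcpos : 0 < c := by
      have : 1 / (N : ℝ) ≤ 1 / 2 := one_div_le_one_div_of_le (by norm_num) hNr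
      linarith
    have hjensen : c ^ e ≤ ∫ x, p x ^ e ∂P := by
      have hlow : ∀ x, c ^ e + (e * c ^ e / c) * (p x - c) ≤ p x ^ e := by
        intro x
        have h := one_add_mul_le_pow (a := p x / c - 1)
          (by have := div_nonneg (hpb x).1 hcpos.le; linarith) e
        rw [add_sub_cancel, div_pow, le_div_iff₀ (pow_pos hcpos _)] at h
        refine le_trans (le_of_eq ?_) h
        field_simp
      have hi : Integrable (fun x => c ^ e + (e * c ^ e / c) * (p x - c)) P :=
        (integrable_const _).add ((hpint.sub (integrable_const _)).const_mul _)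
      refine le_trans (le_of_eq ?_) (integral_mono hi hpe hlow)
      rw [integral_add (integrable_const _) ((hpint.sub' (integrable_const _)).const_mul _),
        integral_const_mul, integral_sub hpint (integrable_const _)]
      simp [c]
    set S := (univ : Finset (V → Fin N)).filter Function.Injective
    have hq : ∫ x, q x ∂P ≤ t + 2 ^ e * (v : ℝ) ^ 2 / N := by
      simp only [q]
      rw [integral_div, integral_finsetSum _ (fun φ _ => hint' φ)]
      have hterm : ∀ φ : V → Fin N, ∫ x, eprod W hW E (fun v => x (φ v)) ∂P ≤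
          2 ^ e - (if φ ∈ S then 2 ^ e - t else 0) := by
        intro φ
        split_ifs with hφ
        · rw [sub_sub_cancel]
          refine le_of_eq ?_
          rw [ht, ← pi_map_inj (μ := μ) φ (mem_filter.1 hφ).2, integral_map]
          · exact (measurable_pi_lambda _ (fun i => measurable_pi_apply _)).aemeasurable
          · exact (measurable_eprod W hW hmeas E (fun v : V => v)).aestronglyMeasurable
        · rw [sub_zero]
          refine (integral_mono (hint' φ) (integrable_const (2 ^ e)) (fun x => (hb0 _).2)).trans ?_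
          simp
      have hScard : S.card = N.descFactorial v := by
        rw [← Fintype.card_subtype, Fintype.card_congr (Equiv.subtypeInjectiveEquivEmbedding V (Fin N)),
          Fintype.card_embedding_eq, Fintype.card_fin]
      have hfrac : (N : ℝ) ^ v * (1 - (v : ℝ) ^ 2 / N) ≤ S.card := by
        have h1 : ((N - v) ^ v : ℕ) ≤ N.descFactorial v :=
          (Nat.pow_le_pow_left (by omega) v).trans (Nat.pow_sub_le_descFactorial N v)
        have h2 : ((N : ℝ) - v) ^ v ≤ (S.card : ℝ) := by
          rw [hScard, ← Nat.cast_sub hvN]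
          exact_mod_cast h1
        refine le_trans ?_ h2
        have h3 := one_add_mul_le_pow (a := -((v : ℝ) / N))
          (by have : (v : ℝ) / N ≤ 1 := (div_le_one hNpos).2 (by exact_mod_cast hvN); linarith) v
        calc (N : ℝ) ^ v * (1 - (v : ℝ) ^ 2 / N)
            ≤ (N : ℝ) ^ v * (1 + -((v : ℝ) / N)) ^ v :=
              mul_le_mul_of_nonneg_left (le_trans (le_of_eq (by ring)) h3) (by positivity)
          _ = _ := by rw [← mul_pow]; field_simp; ring_nf
      rw [div_le_iff₀ (by positivity)]
      refine (sum_le_sum (fun φ _ => hterm φ)).trans ?_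
      rw [sum_sub_distrib, sum_ite_mem, univ_inter, sum_const, sum_const, card_univ,
        Fintype.card_fun, Fintype.card_fin]
      simp only [nsmul_eq_mul, Nat.cast_pow]
      have h4 := mul_le_mul_of_nonneg_right hfrac (sub_nonneg.2 ht2)
      have h5 : 0 ≤ (N : ℝ) ^ v * ((v : ℝ) ^ 2 / N) * t := by positivity
      rw [show (N : ℝ) ^ Fintype.card V = (N : ℝ) ^ v from rfl]
      rw [show (t + 2 ^ e * (v : ℝ) ^ 2 / N) * (N : ℝ) ^ v =
        (N : ℝ) ^ v * t + 2 ^ e * ((N : ℝ) ^ v * ((v : ℝ) ^ 2 / N)) by ring]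
      nlinarith
    have hce : 1 - (e : ℝ) / N ≤ c ^ e := by
      have h3 := one_add_mul_le_pow (a := -(1 / (N : ℝ)))
        (by have : 1 / (N : ℝ) ≤ 1 / 2 := one_div_le_one_div_of_le (by norm_num) hNr; linarith) e
      refine le_trans (le_trans (le_of_eq (by ring)) h3) (pow_le_pow_left₀ ?_ (by linarith) _)
      have : 1 / (N : ℝ) ≤ 1 / 2 := one_div_le_one_div_of_le (by norm_num) hNr
      linarith
    have := integral_mono hpe hqint hpt
    linarith [hce.trans hjensen]
  refine le_of_forall_pos_lt_add (fun δ hδ => ?_)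
  obtain ⟨N, hN⟩ := exists_nat_gt (((e : ℝ) + 2 ^ e * (v : ℝ) ^ 2) / δ)
  have hk := key (max N (max 2 v)) (by omega) (by omega)
  set M := max N (max 2 v)
  have hMN : (N : ℝ) ≤ M := by exact_mod_cast le_max_left _ _
  have hMpos : (0 : ℝ) < M := by
    have : 2 ≤ M := le_trans (le_max_left _ _) (le_max_right _ _)
    exact_mod_cast (show 0 < M by omega)
  have : ((e : ℝ) + 2 ^ e * (v : ℝ) ^ 2) / M < δ := by
    rw [div_lt_iff₀ hMpos]
    rw [div_lt_iff₀ hδ] at hN
    nlinarith
  rw [add_div] at this
  linarith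

/-- The theorem in the form of graphs. -/
theorem local_sidorenko [hdec : DecidableEq V] (H : SimpleGraph V) [DecidableRel H.Adj]
    (hbip : H.IsBipartite) (W : Ω → Ω → ℝ) (hW : ∀ x y, W x y = W y x)
    (hmeas : Measurable (Function.uncurry W)) (hint : ∫ p, W p.1 p.2 ∂(μ.prod μ) = 1)
    (hclose : ∀ᵐ p ∂(μ.prod μ), 1000 * (H.maxDegree : ℝ) * |W p.1 p.2 - 1| ≤ 1) :
    1 ≤ homDensity H μ W hW := by
  obtain rfl : hdec = Classical.decEq V := Subsingleton.elim _ _
  set D := H.maxDegree
  obtain ⟨C⟩ := hbip
  let col : V → Bool := fun v => decide (C v = 0)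
  have hcol : ∀ a b, s(a, b) ∈ H.edgeFinset → col a ≠ col b := by
    intro a b h
    rw [SimpleGraph.mem_edgeFinset, SimpleGraph.mem_edgeSet] at h
    have := C.valid h
    simp only [col, ne_eq, decide_eq_decide]
    generalize C a = i at this
    generalize C b = j at this
    revert this
    fin_cases i <;> fin_cases j <;> simp
  have hdeg : ∀ v, edeg H.edgeFinset v ≤ D := by
    intro v
    refine le_trans (le_of_eq ?_) (H.degree_le_maxDegree v)
    unfold edeg
    convert H.card_incidenceFinset_eq_degree v using 2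
    ext f
    simp [SimpleGraph.incidenceSet]
  rcases Nat.eq_zero_or_pos D with hD | hD
  · have hE : H.edgeFinset = ∅ := by
      rw [eq_empty_iff_forall_notMem]
      intro f hf
      induction f using Sym2.ind with
      | h a b =>
        have : 0 < edeg H.edgeFinset a :=
          card_pos.2 ⟨_, mem_filter.2 ⟨hf, Sym2.mem_mk_left _ _⟩⟩
        have := hdeg a
        omega
    simp [homDensity, hE]
  set ε := 1 / (1000 * (D : ℝ))
  have hDr : (0 : ℝ) < D := by exact_mod_cast hD
  set W' := fun a b => if |W a b - 1| ≤ ε then W a b else 1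
  have hW' : ∀ a b, W' a b = W' b a := fun a b => by simp only [W', hW a b]
  have hm' : Measurable (Function.uncurry W') :=
    Measurable.ite (measurableSet_le ((hmeas.sub measurable_const).abs) measurable_const) hmeas
      measurable_const
  have hae : ∀ᵐ p ∂(μ.prod μ), W' p.1 p.2 = W p.1 p.2 := by
    filter_upwards [hclose] with p hp
    refine if_pos ?_
    rw [le_div_iff₀ (by positivity)]
    linarith
  have hint'' : ∫ p, W' p.1 p.2 ∂(μ.prod μ) = 1 := (integral_congr_ae hae).trans hint
  have hloop : ∀ f ∈ H.edgeFinset, ¬ f.IsDiag := fun f hf => by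
    simp only [SimpleGraph.mem_edgeFinset] at hf
    exact H.not_isDiag_of_mem_edgeSet hf
  have hmain := sampling_bound W' hW' hm' hint'' H.edgeFinset hloop col hcol hD hdeg
    (fun a b => by
      simp only [W']
      split_ifs with h
      · exact h
      · simp)
  refine hmain.trans (le_of_eq (integral_congr_ae ?_))
  have : ∀ f ∈ H.edgeFinset, ∀ᵐ x ∂(Measure.pi (fun _ : V => μ)),
      Sym2.lift ⟨fun u w => W' (x u) (x w), fun _ _ => hW' _ _⟩ f =
        Sym2.lift ⟨fun u w => W (x u) (x w), fun _ _ => hW _ _⟩ f := by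
    intro f hf
    induction f using Sym2.ind with
    | h a b =>
      have hab : a ≠ b := fun h => hloop _ hf (by simp [h])
      simpa using (measurePreserving_pair (μ := μ) hab).quasiMeasurePreserving.ae hae
  filter_upwards [(Filter.eventually_all_finset _).2 this] with x hx
  exact prod_congr rfl hx

end

end Vale.Agent.P050
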